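import Vale.Agent.P193.K2.Surj
import Vale.Agent.P193.Steinberg.Main

/-!
The Steinberg group of size fifteen is the group of invertible matrices for rings with a swindle in
which finitely many nonzero elements can be cut down to one simultaneously.
-/

noncomputable section

namespace Vale.Agent.P193.K2

open Matrix Vale.Agent.P193.Steinberg
open scoped Classical

variable {R : Type*} [Ring R] {n m : ℕ}

/-- Applying a ring map to the entries. -/
def mapR (f : R →+* R) : St n R →* St n R :=
  lift (x := fun i j r => xst i j (f r))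
    { add := fun i j h r s => by rw [map_add]; exact xst_rels.add i j h _ _
      mul := fun i j l h h' h'' r s => by rw [map_mul]; exact xst_rels.mul i j l h h' h'' _ _
      comm := fun i j a b h h' h'' h3 r s => xst_rels.comm i j a b h h' h'' h3 _ _ }

theorem mapR_xst (f : R →+* R) (i j : Fin n) (r : R) : mapR f (xst i j r) = xst i j (f r) := by
  by_cases h : i = j
  · subst h; simp [xst]
  · exact lift_xst _ h r

theorem toG_mapR (f : R →+* R) (x : St n R) :
    toG (mapR f x) = Units.map (f.mapMatrix : Matrix (Fin n) (Fin n) R →+* _).toMonoidHom (toG x) := by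
  refine DFunLike.congr_fun (hom_ext (f := toG.comp (mapR f))
    (g := (Units.map (f.mapMatrix : Matrix (Fin n) (Fin n) R →+* _).toMonoidHom).comp toG)
    fun i j r h => ?_) x
  refine Units.ext ?_
  simp only [MonoidHom.comp_apply, mapR_xst, toG_xst]
  show (tu i j (f r) : Matrix (Fin n) (Fin n) R) = f.mapMatrix (tu i j r : Matrix (Fin n) (Fin n) R)
  rw [tu_val h, tu_val h, map_add, map_one]
  congr 1
  ext a b
  simp [Matrix.single_apply, apply_ite f]

theorem idxMap_commute {a b : ℕ} (f g : Fin a → Fin b) (hf : Function.Injective f)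
    (hg : Function.Injective g) (h : ∀ i j, f i ≠ g j) (x y : St a R) :
    Commute (idxMap f hf x) (idxMap g hg y) := by
  have h1 : ∀ i j (r : R), i ≠ j → ∀ y : St a R, Commute (xst (f i) (f j) r) (idxMap g hg y) := by
    intro i j r hij y
    have hy : y ∈ Subgroup.closure {z : St a R | ∃ i j r, i ≠ j ∧ z = xst i j r} := by
      rw [closure_xst]; trivial
    induction hy using Subgroup.closure_induction with
    | mem z hz =>
      obtain ⟨k, l, s, hkl, rfl⟩ := hz
      rw [idxMap_xst]
      exact xst_rels.comm _ _ _ _ (hf.ne hij) (hg.ne hkl) (h j k) (h i l) r s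
    | one => rw [map_one]; exact Commute.one_right _
    | mul p q _ _ hp hq => rw [map_mul]; exact hp.mul_right hq
    | inv p _ hp => rw [map_inv]; exact hp.inv_right
  have hx : x ∈ Subgroup.closure {z : St a R | ∃ i j r, i ≠ j ∧ z = xst i j r} := by
    rw [closure_xst]; trivial
  induction hx using Subgroup.closure_induction with
  | mem z hz =>
    obtain ⟨i, j, r, hij, rfl⟩ := hz
    rw [idxMap_xst]
    exact h1 i j r hij y
  | one => rw [map_one]; exact Commute.one_left _
  | mul p q _ _ hp hq => rw [map_mul]; exact hp.mul_left hq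
  | inv p _ hp => rw [map_inv]; exact hp.inv_left

/-- Homomorphisms from a Steinberg group agreeing up to central elements are equal. -/
theorem hom_eq (hn : 3 ≤ n) {G H : Type*} [Group G] [Group H] (q : G →* H)
    (hq : ∀ c, q c = 1 → ∀ g, Commute c g) {f g : St n R →* G} (h : ∀ x, q (f x) = q (g x)) :
    f = g := by
  refine hom_ext fun i j r hij => ?_
  obtain ⟨l, hl⟩ : ∃ l, l ∉ ({i, j} : Finset (Fin n)) := by
    by_contra h'
    push Not at h'
    have h2 := Finset.card_le_card (fun x (_ : x ∈ Finset.univ) => h' x)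
    rw [Finset.card_univ, Fintype.card_fin] at h2
    have := Finset.card_le_two (a := i) (b := j)
    omega
  simp only [Finset.mem_insert, Finset.mem_singleton, not_or] at hl
  rw [← mul_one r, ← xst_rels.mul i l j (Ne.symm hl.1) hl.2 hij r 1, map_commutatorElement,
    map_commutatorElement]
  have key : ∀ x, ∃ z : G, (∀ a, Commute z a) ∧ f x = z * g x := fun x =>
    ⟨f x * (g x)⁻¹, hq _ (by rw [map_mul, map_inv, h, mul_inv_cancel]), (inv_mul_cancel_right _ _).symm⟩
  obtain ⟨z1, hz1, e1⟩ := key (xst i l r)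
  obtain ⟨z2, hz2, e2⟩ := key (xst l j 1)
  rw [e1, e2]
  set A := g (xst i l r)
  set B := g (xst l j 1)
  simp only [commutatorElement_def, _root_.mul_inv_rev]
  calc z1 * A * (z2 * B) * (A⁻¹ * z1⁻¹) * (B⁻¹ * z2⁻¹)
      = z1 * (A * z2) * B * A⁻¹ * (z1⁻¹ * B⁻¹) * z2⁻¹ := by group
    _ = z1 * (z2 * A) * B * A⁻¹ * (B⁻¹ * z1⁻¹) * z2⁻¹ := by
      rw [(hz2 A).eq, ((hz1 B⁻¹).inv_left).eq]
    _ = z1 * z2 * (A * B * A⁻¹ * B⁻¹) * (z2 * z1)⁻¹ := by group
    _ = A * B * A⁻¹ * B⁻¹ := by
      rw [((hz1 (A * B * A⁻¹ * B⁻¹)).mul_left (hz2 _)).eq, (hz1 z2).eq, mul_inv_cancel_right]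

/-- The inclusion of the last five indices. -/
def shift (n : ℕ) (hn : 5 ≤ n) (i : Fin 5) : Fin n := ⟨i.1 + (n - 5), by omega⟩

theorem shift_injective (n : ℕ) (hn : 5 ≤ n) : Function.Injective (shift n hn) := fun i j h => by
  have := congrArg Fin.val h
  simp only [shift] at this
  exact Fin.ext (by omega)

/-- The block matrices with scalar blocks. -/
def big : Matrix (Fin 3) (Fin 3) R →* Matrix (Fin 3 × Fin 5) (Fin 3 × Fin 5) R where
  toFun A := Matrix.of fun a b => if a.2 = b.2 then A a.1 b.1 else 0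
  map_one' := by
    ext a b
    obtain ⟨a1, a2⟩ := a
    obtain ⟨b1, b2⟩ := b
    by_cases h2 : a2 = b2 <;> by_cases h1 : a1 = b1 <;> simp [h1, h2, Matrix.one_apply]
  map_mul' A B := by
    ext a b
    simp only [Matrix.of_apply, Matrix.mul_apply, Fintype.sum_prod_type]
    by_cases h : a.2 = b.2
    · simp [h]
    · simp [h]

/-- A matrix supported in one position of every block. -/
def Kp (A : Matrix (Fin 3) (Fin 3) R) (i j : Fin 5) : Matrix (Fin 3 × Fin 5) (Fin 3 × Fin 5) R :=
  Matrix.of fun a b => if a.2 = i ∧ b.2 = j then A a.1 b.1 else 0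

theorem big_mul_Kp (u A : Matrix (Fin 3) (Fin 3) R) (i j : Fin 5) :
    big u * Kp A i j = Kp (u * A) i j := by
  ext a b
  simp only [big, Kp, MonoidHom.coe_mk, OneHom.coe_mk, Matrix.of_apply, Matrix.mul_apply,
    Fintype.sum_prod_type]
  by_cases hb : b.2 = j <;> by_cases ha : a.2 = i <;> simp [ha, hb]

theorem Kp_mul_big (u A : Matrix (Fin 3) (Fin 3) R) (i j : Fin 5) :
    Kp A i j * big u = Kp (A * u) i j := by
  ext a b
  simp only [big, Kp, MonoidHom.coe_mk, OneHom.coe_mk, Matrix.of_apply, Matrix.mul_apply,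
    Fintype.sum_prod_type]
  by_cases hb : b.2 = j <;> by_cases ha : a.2 = i <;> simp [ha, hb, Ne.symm, eq_comm]

/-- The blocks inside fifteen indices. -/
def E : Fin 3 × Fin 5 ≃ Fin 15 where
  toFun a := ⟨5 * (2 - a.1.1) + a.2.1, by omega⟩
  invFun x := (⟨2 - x.1 / 5, by omega⟩, ⟨x.1 % 5, by omega⟩)
  left_inv a := Prod.ext (Fin.ext (by simp only; omega)) (Fin.ext (by simp only; omega))
  right_inv x := Fin.ext (by simp only; omega)

/-- One block of indices. -/
def blkf (b : Fin 3) (p : Fin 5) : Fin 15 := E (b, p)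

theorem blkf_injective (b : Fin 3) : Function.Injective (blkf b) := fun p q h =>
  (Prod.ext_iff.1 (E.injective h)).2

theorem blkf_ne {b c : Fin 3} (h : b ≠ c) (p q : Fin 5) : blkf b p ≠ blkf c q := fun e =>
  h (Prod.ext_iff.1 (E.injective e)).1

/-- Block matrices as units of size fifteen. -/
def bigU : (Matrix (Fin 3) (Fin 3) R)ˣ →* (Matrix (Fin 15) (Fin 15) R)ˣ :=
  Units.map
    { toFun := fun A => (big A).submatrix E.symm E.symm
      map_one' := by rw [map_one, Matrix.submatrix_one_equiv]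
      map_mul' := fun A B => by rw [map_mul, Matrix.submatrix_mul_equiv] }

theorem intertwine (u : (Matrix (Fin 3) (Fin 3) R)ˣ) (d d' : Fin 3 → R) {i j : Fin 5} (hij : i ≠ j)
    (h : (u : Matrix (Fin 3) (Fin 3) R) * Matrix.diagonal d = Matrix.diagonal d' * u) :
    bigU u * (tu (blkf 0 i) (blkf 0 j) (d 0) * tu (blkf 1 i) (blkf 1 j) (d 1) *
        tu (blkf 2 i) (blkf 2 j) (d 2)) =
      tu (blkf 0 i) (blkf 0 j) (d' 0) * tu (blkf 1 i) (blkf 1 j) (d' 1) *
        tu (blkf 2 i) (blkf 2 j) (d' 2) * bigU u := by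
  have hne : ∀ b, blkf b i ≠ blkf b j := fun b => (blkf_injective b).ne hij
  have hprod : ∀ d : Fin 3 → R, (((tu (blkf 0 i) (blkf 0 j) (d 0) * tu (blkf 1 i) (blkf 1 j) (d 1) *
      tu (blkf 2 i) (blkf 2 j) (d 2)) : (Matrix (Fin 15) (Fin 15) R)ˣ) : Matrix (Fin 15) (Fin 15) R) =
        1 + (Kp (Matrix.diagonal d) i j).submatrix E.symm E.symm := by
    intro d
    have hz : ∀ (b c : Fin 3) (r s : R), Matrix.single (blkf b i) (blkf b j) r *
        Matrix.single (blkf c i) (blkf c j) s = (0 : Matrix (Fin 15) (Fin 15) R) := by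
      intro b c r s
      have hji : blkf b j ≠ blkf c i := fun e => hij (Prod.ext_iff.1 (E.injective e)).2.symm
      simp [hji]
    simp only [Units.val_mul, tu_val (hne _), add_mul, mul_add, one_mul, mul_one, hz, zero_mul,
      add_zero]
    have e : (Kp (Matrix.diagonal d) i j).submatrix E.symm E.symm =
        Matrix.single (blkf 0 i) (blkf 0 j) (d 0) + Matrix.single (blkf 1 i) (blkf 1 j) (d 1) +
          Matrix.single (blkf 2 i) (blkf 2 j) (d 2) := by
      ext x y
      obtain ⟨⟨b, p⟩, rfl⟩ := E.surjective x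
      obtain ⟨⟨c, q⟩, rfl⟩ := E.surjective y
      simp only [Matrix.submatrix_apply, Equiv.symm_apply_apply, Matrix.add_apply,
        Matrix.single_apply, blkf, E.apply_eq_iff_eq, Prod.mk.injEq, Kp, Matrix.of_apply]
      by_cases hp : p = i
      · by_cases hq : q = j
        · subst hp hq
          fin_cases b <;> fin_cases c <;> simp
        · simp [hp, hq, Ne.symm hq]
      · simp [hp, Ne.symm hp]
    rw [e]
    abel
  refine Units.ext ?_
  rw [Units.val_mul (bigU u), Units.val_mul _ (bigU u), hprod, hprod, mul_add, add_mul, mul_one,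
    one_mul]
  congr 1
  show (big (u : Matrix (Fin 3) (Fin 3) R)).submatrix E.symm E.symm * _ =
    _ * (big (u : Matrix (Fin 3) (Fin 3) R)).submatrix E.symm E.symm
  rw [Matrix.submatrix_mul_equiv, Matrix.submatrix_mul_equiv, big_mul_Kp, Kp_mul_big, h]

theorem tu_zero (i j : Fin n) : (tu i j (0 : R) : (Matrix (Fin n) (Fin n) R)ˣ) = 1 := by
  by_cases h : i = j
  · simp [tu, h]
  · exact Units.ext (by rw [tu_val h, Matrix.single_zero, add_zero]; rfl)

section Swindle

variable [Nontrivial R] (two : (2 : R) = 0) (hu : UCuts R) (S : Split R) (phi : R →+* R)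
  (hphi : ∀ a, phi a = S.s0 * a * S.t0 + S.s1 * phi a * S.t1)

include two hu S phi hphi

theorem ker_central {n : ℕ} (hn : 6 ≤ n) {c : St n R} (hc : toG c = 1) (g : St n R) :
    Commute c g := by
  obtain ⟨k, rfl⟩ : ∃ k, n = k + 3 := ⟨n - 3, by omega⟩
  obtain ⟨c', hc', rfl⟩ := ker_le_stab two hu.cuts
    (el_eq_top hu.cuts S phi hphi k (by omega)) (by omega) hu S hc
  exact stab_central hc' g

theorem ker_shift : ∀ n (hn : 5 ≤ n) (c : St n R), toG c = 1 →
    ∃ c5 : St 5 R, toG c5 = 1 ∧ c = idxMap (shift n hn) (shift_injective n hn) c5 := by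
  intro n hn
  induction n, hn using Nat.le_induction with
  | base =>
    intro c hc
    refine ⟨c, hc, ?_⟩
    have h : idxMap (shift 5 le_rfl) (shift_injective 5 le_rfl) = MonoidHom.id (St 5 R) :=
      hom_ext fun i j r _ => by rw [idxMap_xst]; rfl
    rw [h]; rfl
  | succ n hn ih =>
    intro c hc
    obtain ⟨k, rfl⟩ : ∃ k, n = k + 2 := ⟨n - 2, by omega⟩
    obtain ⟨c', hc', rfl⟩ := ker_le_stab two hu.cuts
      (el_eq_top hu.cuts S phi hphi k (by omega)) (by omega) hu S hc
    obtain ⟨c5, hc5, rfl⟩ := ih c' hc'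
    refine ⟨c5, hc5, ?_⟩
    rw [stab, idxMap_idxMap]
    refine idxMap_congr _ _ (funext fun i => Fin.ext ?_) c5
    simp only [shift, Function.comp_apply, Fin.val_succ]
    omega

theorem toG_injective : Function.Injective (toG : St 15 R → (Matrix (Fin 15) (Fin 15) R)ˣ) := by
  refine (injective_iff_map_eq_one toG).2 fun c hc => ?_
  obtain ⟨c5, hc5, rfl⟩ := ker_shift two hu S phi hphi 15 (by norm_num) c hc
  have hshift : ∀ x : St 5 R,
      idxMap (shift 15 (by norm_num)) (shift_injective _ _) x = idxMap (blkf 0) (blkf_injective 0) x :=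
    idxMap_congr _ _ (funext fun i => Fin.ext (by simp [shift, blkf, E]; omega))
  rw [hshift]
  set ι0 : St 5 R →* St 15 R := idxMap (blkf 0) (blkf_injective 0)
  set ι1 : St 5 R →* St 15 R := idxMap (blkf 1) (blkf_injective 1)
  have hcent : ∀ c : St 15 R, toG c = 1 → ∀ g, Commute c g := fun c hc g =>
    ker_central two hu S phi hphi (by norm_num) hc g
  have hlift : ∀ u : (Matrix (Fin 15) (Fin 15) R)ˣ, ∃ g : St 15 R, toG g = u := fun u =>
    el_le_range (el_eq_top hu.cuts S phi hphi 14 (by norm_num) u)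
  -- the two copies are conjugate
  let w : (Matrix (Fin 3) (Fin 3) R)ˣ :=
    { val := !![0, 1, 0; 1, 0, 0; 0, 0, 1]
      inv := !![0, 1, 0; 1, 0, 0; 0, 0, 1]
      val_inv := by ext a b; fin_cases a <;> fin_cases b <;> simp [Matrix.mul_apply, Fin.sum_univ_three]
      inv_val := by ext a b; fin_cases a <;> fin_cases b <;> simp [Matrix.mul_apply, Fin.sum_univ_three] }
  obtain ⟨W, hW⟩ := hlift (bigU w)
  have hconj : ∀ x, ι1 x = W * ι0 x * W⁻¹ := by
    refine DFunLike.congr_fun (hom_eq (n := 5) (by norm_num) toG hcent (g := (MulAut.conj W).toMonoidHom.comp ι0) ?_)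
    intro x
    refine DFunLike.congr_fun (hom_ext (f := toG.comp ι1)
      (g := toG.comp ((MulAut.conj W).toMonoidHom.comp ι0)) fun i j r hij => ?_) x
    have h := intertwine w ![r, 0, 0] ![0, r, 0] hij (by
      ext a b; fin_cases a <;> fin_cases b <;> simp [w, Matrix.mul_apply, Fin.sum_univ_three])
    simp [tu_zero] at h
    simp only [MonoidHom.comp_apply, MulEquiv.coe_toMonoidHom, MulAut.conj_apply, ι0, ι1,
      idxMap_xst, map_mul, map_inv, toG_xst, hW]
    rw [h]
    group
  let U : (Matrix (Fin 3) (Fin 3) R)ˣ :=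
    { val := !![S.s0, S.s1, 0; 0, 0, S.t0; 0, 0, S.t1]
      inv := !![S.t0, 0, 0; S.t1, 0, 0; 0, S.s0, S.s1]
      val_inv := by
        ext a b
        fin_cases a <;> fin_cases b <;>
          simp [Matrix.mul_apply, Fin.sum_univ_three, S.t0s0, S.t1s1, S.t0s1, S.t1s0, S.sum]
      inv_val := by
        ext a b
        fin_cases a <;> fin_cases b <;>
          simp [Matrix.mul_apply, Fin.sum_univ_three, S.t0s0, S.t1s1, S.t0s1, S.t1s0, S.sum] }
  obtain ⟨V, hV⟩ := hlift (bigU U)
  have hcomm : ∀ x y, Commute (ι0 x) (ι1 y) := fun x y =>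
    idxMap_commute _ _ _ _ (fun p q => blkf_ne (by decide) p q) x y
  let pair : St 5 R →* St 15 R :=
    MonoidHom.mk' (fun x => ι0 x * ι1 (mapR phi x)) fun x y => by
      simp only [map_mul]
      calc ι0 x * ι0 y * (ι1 (mapR phi x) * ι1 (mapR phi y))
          = ι0 x * (ι0 y * ι1 (mapR phi x)) * ι1 (mapR phi y) := by group
        _ = ι0 x * ι1 (mapR phi x) * (ι0 y * ι1 (mapR phi y)) := by rw [(hcomm y _).eq]; group
  have hswindle : ∀ x, ι0 (mapR phi x) = V * (ι0 x * ι1 (mapR phi x)) * V⁻¹ := by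
    refine DFunLike.congr_fun (hom_eq (n := 5) (by norm_num) toG hcent
      (f := ι0.comp (mapR phi)) (g := (MulAut.conj V).toMonoidHom.comp pair) ?_)
    intro x
    refine DFunLike.congr_fun (hom_ext (f := toG.comp (ι0.comp (mapR phi)))
      (g := toG.comp ((MulAut.conj V).toMonoidHom.comp pair)) fun i j r hij => ?_) x
    have e0 : phi r * S.s0 = S.s0 * r := by
      conv_lhs => rw [hphi]
      simp [add_mul, mul_assoc, S.t0s0, S.t1s0]
    have e1 : phi r * S.s1 = S.s1 * phi r := by
      conv_lhs => rw [hphi]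
      simp [add_mul, mul_assoc, S.t0s1, S.t1s1]
    have h := intertwine U ![r, phi r, 0] ![phi r, 0, 0] hij (by
      ext a b; fin_cases a <;> fin_cases b <;>
        simp [U, Matrix.mul_apply, Fin.sum_univ_three, e0, e1])
    simp [tu_zero] at h
    simp only [MonoidHom.comp_apply, MulEquiv.coe_toMonoidHom, MulAut.conj_apply, pair,
      MonoidHom.mk'_apply, ι0, ι1, idxMap_xst, mapR_xst, map_mul, map_inv, toG_xst, hV]
    rw [eq_mul_inv_of_mul_eq h.symm]
    group
  have hk0 : ∀ x : St 5 R, toG x = 1 → toG (ι0 x) = 1 := by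
    intro x hx
    have e : ι0 x = idxMap (shift 15 (by norm_num)) (shift_injective _ _) x := (hshift x).symm
    rw [e]
    exact idxMap_ker (by norm_num) hx
  have hp : toG (mapR phi c5) = 1 := by rw [toG_mapR, hc5, map_one]
  have hc1 : ι1 (mapR phi c5) = ι0 (mapR phi c5) := by
    rw [hconj, ((hcent _ (hk0 _ hp)) W).symm.eq, mul_inv_cancel_right]
  have h := hswindle c5
  rw [hc1, (((hcent _ (hk0 _ hc5)) V).mul_left ((hcent _ (hk0 _ hp)) V)).symm.eq,
    mul_inv_cancel_right] at h
  exact mul_eq_right.1 h.symm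
where
  idxMap_ker {x : St 5 R} {n : ℕ} (hn : 5 ≤ n) (hx : toG x = 1) :
      toG (idxMap (shift n hn) (shift_injective n hn) x) = 1 := by
    induction n, hn using Nat.le_induction with
    | base =>
      have h : idxMap (shift 5 le_rfl) (shift_injective 5 le_rfl) = MonoidHom.id (St 5 R) :=
        hom_ext fun i j r _ => by rw [idxMap_xst]; rfl
      rw [h]; exact hx
    | succ n hn ih =>
      rw [idxMap_congr (shift_injective (n + 1) (by omega))
        ((Fin.succ_injective n).comp (shift_injective n hn)) (funext fun i => Fin.ext (by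
          simp [shift]; omega)) x, ← idxMap_idxMap (shift n hn) (shift_injective n hn) Fin.succ
        (Fin.succ_injective n)]
      show toG (stab _) = 1
      rw [toG_stab, ih, map_one]

theorem toGL_bijective : Function.Bijective (toGL : St 15 R → GLn 15 R) := by
  have e : (toGL : St 15 R →* GLn 15 R) = toG := hom_ext fun i j r h => by
    rw [toGL_xst h, toG_xst]
    exact Units.ext (by rw [val_elem h, tu_val h])
  rw [e]
  exact ⟨toG_injective two hu S phi hphi, fun g =>
    el_le_range (el_eq_top hu.cuts S phi hphi 14 (by norm_num) g)⟩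

theorem elemGroup_eq_top : elemGroup 15 R = ⊤ := by
  rw [← range_toGL]
  exact MonoidHom.range_eq_top.2 (toGL_bijective two hu S phi hphi).2

end Swindle

end Vale.Agent.P193.K2
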