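import Mathlib

/-!
Rings in which nonzero elements can be cut down to one: transitivity of the elementary group on
unimodular columns with a complement, and vanishing of `K₁` in the presence of a swindle.
-/

noncomputable section

namespace Vale.Agent.P193.K2

open Matrix

variable {R : Type*} [Ring R] {k : ℕ}

/-- Every nonzero element can be cut down to one. -/
def Cuts (R : Type*) [Ring R] : Prop := ∀ a : R, a ≠ 0 → ∃ c x : R, c * a * x = 1

theorem single_sq {i j : Fin k} (h : i ≠ j) (r s : R) :
    Matrix.single i j r * Matrix.single i j s = (0 : Matrix (Fin k) (Fin k) R) :=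
  by simp [h.symm]

/-- The elementary matrix as a unit. -/
def tu (i j : Fin k) (r : R) : (Matrix (Fin k) (Fin k) R)ˣ :=
  if h : i ≠ j then
    { val := 1 + Matrix.single i j r
      inv := 1 - Matrix.single i j r
      val_inv := by rw [add_mul, one_mul, mul_sub, mul_one, single_sq h]; abel
      inv_val := by rw [sub_mul, one_mul, mul_add, mul_one, single_sq h]; abel }
  else 1

theorem tu_val {i j : Fin k} (h : i ≠ j) (r : R) :
    (tu i j r : Matrix (Fin k) (Fin k) R) = 1 + Matrix.single i j r := by simp [tu, h]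

theorem tu_inv {i j : Fin k} (h : i ≠ j) (r : R) :
    (↑(tu i j r)⁻¹ : Matrix (Fin k) (Fin k) R) = 1 - Matrix.single i j r := by simp [tu, h]

/-- The elementary group. -/
def El (R : Type*) [Ring R] (k : ℕ) : Subgroup (Matrix (Fin k) (Fin k) R)ˣ :=
  Subgroup.closure {u | ∃ (i j : Fin k) (r : R), tu i j r = u}

theorem tu_mem (i j : Fin k) (r : R) : tu i j r ∈ El R k := Subgroup.subset_closure ⟨i, j, r, rfl⟩

/-- Columns related by the elementary group. -/
def Reach (v w : Fin k → R) : Prop :=
  ∃ e ∈ El R k, (e : Matrix (Fin k) (Fin k) R) *ᵥ v = w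

theorem Reach.refl (v : Fin k → R) : Reach v v := ⟨1, one_mem _, by simp⟩

theorem Reach.trans {u v w : Fin k → R} (h : Reach u v) (h' : Reach v w) : Reach u w := by
  obtain ⟨e, he, rfl⟩ := h
  obtain ⟨f, hf, rfl⟩ := h'
  exact ⟨f * e, mul_mem hf he, by rw [Units.val_mul, mulVec_mulVec]⟩

theorem reach_add {i j : Fin k} (h : i ≠ j) (r : R) (v : Fin k → R) :
    Reach v (Function.update v i (v i + r * v j)) := by
  refine ⟨tu i j r, tu_mem i j r, ?_⟩
  funext l
  rw [tu_val h, add_mulVec, one_mulVec, single_mulVec]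
  by_cases hl : l = i
  · subst hl; simp
  · simp [hl]

theorem reach_add_sum {b : Fin k} (r : Fin k → R) (v : Fin k → R) :
    ∀ T : Finset (Fin k), b ∉ T → Reach v (Function.update v b (v b + ∑ l ∈ T, r l * v l)) := by
  classical
  intro T
  induction T using Finset.induction_on with
  | empty => intro _; simpa using Reach.refl v
  | insert a T ha ih =>
    intro hb
    simp only [Finset.mem_insert, not_or] at hb
    refine (ih hb.2).trans ?_
    convert reach_add (v := Function.update v b (v b + ∑ l ∈ T, r l * v l)) hb.1 (r a) using 1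
    funext l
    rw [Finset.sum_insert ha]
    by_cases hl : l = b
    · subst hl; simp [Function.update_of_ne (Ne.symm hb.1)]; abel
    · simp [hl]

theorem reach_spread {b : Fin k} (r : Fin k → R) (v : Fin k → R) :
    ∀ T : Finset (Fin k), b ∉ T →
      Reach v (fun l => if l ∈ T then v l + r l * v b else v l) := by
  classical
  intro T
  induction T using Finset.induction_on with
  | empty => intro _; simpa using Reach.refl v
  | insert a T ha ih =>
    intro hb
    simp only [Finset.mem_insert, not_or] at hb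
    refine (ih hb.2).trans ?_
    convert reach_add (v := fun l => if l ∈ T then v l + r l * v b else v l) (Ne.symm hb.1) (r a)
      using 1
    funext l
    by_cases hl : l = a
    · subst hl; simp [ha, hb.2]
    · simp [hl, Finset.mem_insert]

/-- A column with a left inverse whose idempotent is proper. -/
def Good (v : Fin k → R) : Prop :=
  ∃ y : Fin k → R, y ⬝ᵥ v = 1 ∧ vecMulVec v y ≠ (1 : Matrix (Fin k) (Fin k) R)

theorem Reach.of_unimodular {v : Fin k → R} {b : Fin k} (y : Fin k → R)
    (h : ∑ l ∈ Finset.univ.erase b, y l * v l = 1) : Reach v (Pi.single b 1) := by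
  classical
  have hb : b ∉ Finset.univ.erase b := Finset.notMem_erase b _
  refine (reach_add_sum (fun l => (1 - v b) * y l) v _ hb).trans ?_
  have e : v b + ∑ l ∈ Finset.univ.erase b, (1 - v b) * y l * v l = 1 := by
    simp only [mul_assoc]
    rw [← Finset.mul_sum, h, mul_one]
    abel
  rw [e]
  set w := Function.update v b 1
  convert reach_spread (fun l => - w l) w _ hb using 1
  funext l
  by_cases hl : l = b
  · subst hl; simp [w]
  · simp [w, hl]

/-- The elementary group is transitive on good columns. -/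
theorem reach_of_good (hc : Cuts R) {v : Fin k → R} (hv : Good v) (a : Fin k) (hk : 2 ≤ k) :
    Reach v (Pi.single a 1) := by
  classical
  obtain ⟨y, hyv, hne⟩ := hv
  obtain ⟨i0, l0, hil⟩ : ∃ i l, (1 - vecMulVec v y : Matrix (Fin k) (Fin k) R) i l ≠ 0 := by
    by_contra h
    push Not at h
    exact hne (sub_eq_zero.1 (Matrix.ext h)).symm
  set p : Fin k → R := (1 - vecMulVec v y : Matrix (Fin k) (Fin k) R) i0
  have hpv : p ⬝ᵥ v = 0 := by
    show ((1 - vecMulVec v y : Matrix (Fin k) (Fin k) R) *ᵥ v) i0 = 0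
    rw [sub_mulVec, one_mulVec]
    simp only [Pi.sub_apply, mulVec, vecMulVec_apply, dotProduct, mul_assoc]
    rw [← Finset.mul_sum]
    simp only [dotProduct] at hyv
    rw [hyv, mul_one, sub_self]
  have : Nontrivial (Fin k) := Fin.nontrivial_iff_two_le.2 hk
  obtain ⟨j, hj⟩ := exists_ne l0
  obtain ⟨c, x, hcx⟩ := hc (p l0) hil
  -- a related column with a killing row vanishing at `j`
  set r := x * (c * p j)
  set w := Function.update v l0 (v l0 + r * v j)
  have hvw : Reach v w := reach_add (Ne.symm hj) r v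
  set p' : Fin k → R := Function.update (fun l => c * p l) j 0
  set y' : Fin k → R := Function.update y j (y j - y l0 * r)
  have key : ∀ q : Fin k → R,
      Function.update q j (q j - q l0 * r) ⬝ᵥ w = q ⬝ᵥ v := by
    intro q
    have e : ∀ l, Function.update q j (q j - q l0 * r) l * w l = q l * v l +
        ((if l = l0 then q l0 * (r * v j) else 0) - if l = j then q l0 * r * v j else 0) := by
      intro l
      by_cases h1 : l = j
      · subst h1
        simp only [w, Function.update_self, Function.update_of_ne hj, if_neg hj, if_true]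
        noncomm_ring
      · by_cases h2 : l = l0
        · subst h2
          simp only [w, Function.update_self, Function.update_of_ne h1, if_neg h1, if_true]
          noncomm_ring
        · simp [w, h1, h2]
    simp only [dotProduct, e, Finset.sum_add_distrib, Finset.sum_sub_distrib,
      Finset.sum_ite_eq', Finset.mem_univ, if_true, mul_assoc, sub_self, add_zero]
  have hp' : p' ⬝ᵥ w = 0 := by
    have h := key fun l => c * p l
    have e : c * p j - c * p l0 * r = 0 := by
      rw [show c * p l0 * r = c * p l0 * x * (c * p j) by simp [r, mul_assoc], hcx, one_mul,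
        sub_self]
    rw [e] at h
    show Function.update (fun l => c * p l) j 0 ⬝ᵥ w = 0
    rw [h]
    simp only [dotProduct, mul_assoc] at hpv ⊢
    rw [← Finset.mul_sum, hpv, mul_zero]
  have hy' : y' ⬝ᵥ w = 1 := (key y).trans hyv
  -- improve the left inverse on the other coordinates
  have hl0 : l0 ∈ Finset.univ.erase j := Finset.mem_erase.2 ⟨Ne.symm hj, Finset.mem_univ _⟩
  have hp1 : p' l0 * x = 1 := by simp [p', Function.update_of_ne (Ne.symm hj), hcx]
  have hp0 : ∑ l ∈ Finset.univ.erase j, p' l * w l = 0 := by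
    rw [Finset.sum_erase _ (by simp [p'])]
    exact hp'
  set z : Fin k → R := fun l => y' l + (1 - y' l0 * x) * p' l
  have hz : z l0 * x = 1 := by
    simp only [z, add_mul, mul_assoc, hp1, mul_one]
    abel
  have hzw : ∑ l ∈ Finset.univ.erase j, z l * w l = 1 - y' j * w j := by
    simp only [z, add_mul, mul_assoc, Finset.sum_add_distrib, ← Finset.mul_sum]
    rw [hp0, mul_zero, add_zero, eq_sub_iff_add_eq,
      Finset.sum_erase_add _ _ (Finset.mem_univ j)]
    exact hy'
  set w' := Function.update w l0 (w l0 + x * y' j * w j)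
  refine hvw.trans ((reach_add (Ne.symm hj) (x * y' j) w).trans ?_)
  have huni : ∑ l ∈ Finset.univ.erase j, z l * w' l = 1 := by
    have e : ∀ l, z l * w' l = z l * w l + if l = l0 then z l0 * (x * y' j * w j) else 0 := by
      intro l
      by_cases h : l = l0
      · subst h; simp [w', mul_add]
      · simp [w', h]
    simp only [e, Finset.sum_add_distrib, Finset.sum_ite_eq', if_pos hl0, hzw, ← mul_assoc, hz,
      one_mul, sub_add_cancel]
  refine (Reach.of_unimodular z huni).trans ?_
  by_cases haj : a = j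
  · subst haj; exact Reach.refl _
  refine (reach_add haj 1 _).trans ?_
  convert reach_add (v := Function.update (Pi.single j 1 : Fin k → R) a
    ((Pi.single j 1 : Fin k → R) a + 1 * (Pi.single j 1 : Fin k → R) j)) (Ne.symm haj) (-1) using 1
  funext l
  by_cases h1 : l = j
  · subst h1; simp [haj, Ne.symm haj]
  · by_cases h2 : l = a
    · subst h2; simp [h1]
    · simp [h1, h2]

/-- Columns of invertible matrices are good. -/
theorem good_col [Nontrivial R] (g : (Matrix (Fin k) (Fin k) R)ˣ) (a : Fin k) (hk : 2 ≤ k) :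
    Good (fun i => (g : Matrix (Fin k) (Fin k) R) i a) := by
  classical
  have hinv : (↑g⁻¹ : Matrix (Fin k) (Fin k) R) * (g : Matrix (Fin k) (Fin k) R) = 1 := g.inv_mul
  refine ⟨fun l => (↑g⁻¹ : Matrix (Fin k) (Fin k) R) a l, ?_, fun h => ?_⟩
  · have := congrFun (congrFun hinv a) a
    simpa [Matrix.mul_apply, dotProduct] using this
  have : Nontrivial (Fin k) := Fin.nontrivial_iff_two_le.2 hk
  obtain ⟨b, hb⟩ := exists_ne a
  have h0 : ∀ i, (g : Matrix (Fin k) (Fin k) R) i b = 0 := by
    intro i
    have h2 := congrFun (congrFun hinv a) b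
    rw [Matrix.mul_apply, Matrix.one_apply_ne (Ne.symm hb)] at h2
    have h1 : ((1 : Matrix (Fin k) (Fin k) R) * (g : Matrix (Fin k) (Fin k) R)) i b = 0 := by
      rw [← h]
      simp only [Matrix.mul_apply, vecMulVec_apply, mul_assoc, ← Finset.mul_sum]
      rw [h2, mul_zero]
    rwa [one_mul] at h1
  have := congrFun (congrFun hinv b) b
  simp [Matrix.mul_apply, h0] at this

/-- Adjoining a first basis vector. -/
def embM : Matrix (Fin k) (Fin k) R →* Matrix (Fin (k + 1)) (Fin (k + 1)) R where
  toFun A := Matrix.of (Fin.cons (Fin.cons 1 0) fun i => Fin.cons 0 (A i))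
  map_one' := by
    ext i j
    induction i using Fin.cases <;> induction j using Fin.cases <;>
      simp [Matrix.one_apply, Fin.succ_ne_zero, eq_comm]
  map_mul' A B := by
    ext i j
    induction i using Fin.cases <;> induction j using Fin.cases <;>
      simp [Matrix.mul_apply, Fin.sum_univ_succ]

/-- Adjoining a first basis vector, on units. -/
def emb : (Matrix (Fin k) (Fin k) R)ˣ →* (Matrix (Fin (k + 1)) (Fin (k + 1)) R)ˣ :=
  Units.map (embM : Matrix (Fin k) (Fin k) R →* _)

theorem emb_tu (i j : Fin k) (r : R) : emb (tu i j r) = tu i.succ j.succ r := by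
  by_cases h : i = j
  · subst h; simp [tu]
  · refine Units.ext ?_
    rw [tu_val (fun e => h (Fin.succ_injective _ e))]
    show embM (tu i j r : Matrix (Fin k) (Fin k) R) = _
    rw [tu_val h]
    ext a b
    induction a using Fin.cases <;> induction b using Fin.cases <;>
      simp [embM, Matrix.one_apply, Matrix.single_apply, Fin.succ_ne_zero, eq_comm]

theorem emb_mem {g : (Matrix (Fin k) (Fin k) R)ˣ} (h : g ∈ El R k) : emb g ∈ El R (k + 1) := by
  have h' : El R k ≤ (El R (k + 1)).comap emb := by
    refine (Subgroup.closure_le _).2 ?_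
    rintro _ ⟨i, j, r, rfl⟩
    show emb (tu i j r) ∈ El R (k + 1)
    rw [emb_tu]
    exact tu_mem _ _ _
  exact h' h

/-- Diagonal units. -/
def dU : (Fin k → Rˣ) →* (Matrix (Fin k) (Fin k) R)ˣ where
  toFun d :=
    { val := Matrix.diagonal fun i => (d i : R)
      inv := Matrix.diagonal fun i => ((d i)⁻¹ : Rˣ)
      val_inv := by simp [Matrix.diagonal_mul_diagonal]
      inv_val := by simp [Matrix.diagonal_mul_diagonal] }
  map_one' := Units.ext (by simp)
  map_mul' a b := Units.ext (by simp [Matrix.diagonal_mul_diagonal])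

theorem dU_val (d : Fin k → Rˣ) :
    (dU d : Matrix (Fin k) (Fin k) R) = Matrix.diagonal fun i => (d i : R) := rfl

theorem dU_tu (d : Fin k → Rˣ) (i j : Fin k) (r : R) :
    dU d * tu i j r * (dU d)⁻¹ = tu i j (d i * r * ((d j)⁻¹ : Rˣ)) := by
  by_cases h : i = j
  · subst h; simp [tu]
  · rw [mul_inv_eq_iff_eq_mul]
    refine Units.ext ?_
    simp only [Units.val_mul, tu_val h, dU_val]
    rw [mul_add, add_mul, mul_one, one_mul]
    congr 1
    ext a b
    simp only [Matrix.diagonal_mul, Matrix.mul_diagonal, Matrix.single_apply]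
    split_ifs with hab
    · obtain ⟨rfl, rfl⟩ := hab; simp [mul_assoc]
    · simp

theorem dU_normalizes (d : Fin k → Rˣ) {e : (Matrix (Fin k) (Fin k) R)ˣ} (he : e ∈ El R k) :
    dU d * e * (dU d)⁻¹ ∈ El R k := by
  have h : El R k ≤ (El R k).comap (MulAut.conj (dU d)).toMonoidHom := by
    refine (Subgroup.closure_le _).2 ?_
    rintro _ ⟨i, j, r, rfl⟩
    show dU d * tu i j r * (dU d)⁻¹ ∈ El R k
    rw [dU_tu]
    exact tu_mem _ _ _
  exact h he

theorem emb_dU (d : Fin k → Rˣ) : emb (dU d) = dU (Fin.cons 1 d) := by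
  refine Units.ext ?_
  show embM (dU d : Matrix (Fin k) (Fin k) R) = _
  rw [dU_val, dU_val]
  ext a b
  induction a using Fin.cases <;> induction b using Fin.cases <;>
    simp [embM, Matrix.diagonal_apply, Fin.succ_ne_zero, eq_comm]

/-- A translation in the first row. -/
def rowM (v : Fin k → R) : Matrix (Fin (k + 1)) (Fin (k + 1)) R :=
  Matrix.of (Fin.cons (Fin.cons 1 v) fun i => Fin.cons 0 ((1 : Matrix (Fin k) (Fin k) R) i))

theorem rowM_zero : rowM (0 : Fin k → R) = 1 := by
  ext i j
  induction i using Fin.cases <;> induction j using Fin.cases <;>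
    simp [rowM, Matrix.one_apply, Fin.succ_ne_zero, eq_comm]

theorem rowM_add (v w : Fin k → R) : rowM (v + w) = rowM v * rowM w := by
  ext i j
  induction i using Fin.cases <;> induction j using Fin.cases <;>
    simp [rowM, Matrix.mul_apply, Fin.sum_univ_succ, Matrix.one_apply, add_comm]

theorem tu_row (j : Fin k) (r : R) :
    (tu 0 j.succ r : Matrix (Fin (k + 1)) (Fin (k + 1)) R) = rowM (Pi.single j r) := by
  rw [tu_val (Fin.succ_ne_zero j).symm]
  ext a b
  induction a using Fin.cases <;> induction b using Fin.cases <;>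
    simp [rowM, Matrix.one_apply, Matrix.single_apply, Pi.single_apply, Fin.succ_ne_zero, eq_comm]

theorem exists_row (c : Fin k → R) :
    ∃ e ∈ El R (k + 1), (e : Matrix (Fin (k + 1)) (Fin (k + 1)) R) = rowM c := by
  classical
  rw [← Finset.univ_sum_single c]
  refine Finset.sum_induction (fun j => (Pi.single j (c j) : Fin k → R))
    (fun v => ∃ e ∈ El R (k + 1), (e : Matrix (Fin (k + 1)) (Fin (k + 1)) R) = rowM v) ?_
    ⟨1, one_mem _, rowM_zero.symm⟩ fun j _ => ⟨_, tu_mem _ _ _, tu_row j _⟩
  rintro v w ⟨e, he, he'⟩ ⟨f, hf, hf'⟩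
  exact ⟨e * f, mul_mem he hf, by rw [Units.val_mul, he', hf', rowM_add]⟩

/-- An invertible matrix whose first column is the first basis vector. -/
theorem col_zero_decomp (g : (Matrix (Fin (k + 1)) (Fin (k + 1)) R)ˣ)
    (h : ∀ i, (g : Matrix (Fin (k + 1)) (Fin (k + 1)) R) i 0 = (Pi.single 0 1 : Fin (k + 1) → R) i) :
    ∃ (D : (Matrix (Fin k) (Fin k) R)ˣ) (b : Fin k → R),
      (g : Matrix (Fin (k + 1)) (Fin (k + 1)) R) = rowM b * embM (D : Matrix (Fin k) (Fin k) R) := by
  have h' : ∀ i, (↑g⁻¹ : Matrix (Fin (k + 1)) (Fin (k + 1)) R) i 0 =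
      (Pi.single 0 1 : Fin (k + 1) → R) i := by
    intro i
    have h2 := congrFun (congrFun g.inv_mul i) 0
    rw [Matrix.mul_apply, Finset.sum_eq_single 0 (fun b _ hb => by rw [h b]; simp [hb]) (by simp),
      h 0] at h2
    simpa [Matrix.one_apply, Pi.single_apply] using h2
  let blk : Matrix (Fin (k + 1)) (Fin (k + 1)) R → Matrix (Fin k) (Fin k) R :=
    fun A => A.submatrix Fin.succ Fin.succ
  have hblk : ∀ A B : Matrix (Fin (k + 1)) (Fin (k + 1)) R, (∀ i : Fin k, A i.succ 0 = 0) →
      blk (A * B) = blk A * blk B := by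
    intro A B hA
    ext i j
    simp [blk, Matrix.mul_apply, Fin.sum_univ_succ, hA]
  let D : (Matrix (Fin k) (Fin k) R)ˣ :=
    { val := blk g
      inv := blk ↑g⁻¹
      val_inv := by
        rw [← hblk _ _ (fun i => by simp [h]), g.mul_inv]
        exact Matrix.submatrix_one _ (Fin.succ_injective _)
      inv_val := by
        rw [← hblk _ _ (fun i => by simp [h']), g.inv_mul]
        exact Matrix.submatrix_one _ (Fin.succ_injective _) }
  set q : Fin k → R := fun j => (g : Matrix (Fin (k + 1)) (Fin (k + 1)) R) 0 j.succ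
  refine ⟨D, q ᵥ* (↑D⁻¹ : Matrix (Fin k) (Fin k) R), ?_⟩
  ext i j
  induction i using Fin.cases with
  | succ i =>
    induction j using Fin.cases <;>
      simp [rowM, embM, Matrix.mul_apply, Fin.sum_univ_succ, Matrix.one_apply, D, blk, h]
  | zero =>
    induction j using Fin.cases with
    | zero => simp [rowM, embM, Matrix.mul_apply, Fin.sum_univ_succ, h]
    | succ j =>
      have e : (q ᵥ* (↑D⁻¹ : Matrix (Fin k) (Fin k) R)) ᵥ* (D : Matrix (Fin k) (Fin k) R) = q := by
        rw [vecMul_vecMul, D.inv_mul, vecMul_one]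
      have e' := congrFun e j
      simp only [vecMul, dotProduct] at e'
      simpa [rowM, embM, Matrix.mul_apply, Fin.sum_univ_succ, q, vecMul, dotProduct, D] using e'.symm

theorem exists_decomp [Nontrivial R] (hc : Cuts R) : ∀ (k : ℕ) (g : (Matrix (Fin (k + 1)) (Fin (k + 1)) R)ˣ),
    ∃ e ∈ El R (k + 1), ∃ h : Rˣ, g = e * dU (Pi.mulSingle (Fin.last k) h)
  | 0, g => by
    refine ⟨1, one_mem _, ⟨(g : Matrix (Fin 1) (Fin 1) R) 0 0, (↑g⁻¹ : Matrix (Fin 1) (Fin 1) R) 0 0,
      ?_, ?_⟩, ?_⟩
    · simpa [Matrix.mul_apply] using congrFun (congrFun g.mul_inv 0) 0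
    · simpa [Matrix.mul_apply] using congrFun (congrFun g.inv_mul 0) 0
    · refine Units.ext ?_
      ext a b
      obtain rfl : a = 0 := Fin.eq_zero a
      obtain rfl : b = 0 := Fin.eq_zero b
      simp [dU_val]
  | k + 1, g => by
    classical
    obtain ⟨e, he, hev⟩ := reach_of_good hc (good_col g 0 (by omega)) 0 (by omega)
    set g' := e * g with hg'
    have hcol : ∀ i, (g' : Matrix (Fin (k + 2)) (Fin (k + 2)) R) i 0 =
        (Pi.single 0 1 : Fin (k + 2) → R) i := by
      intro i
      rw [← hev]
      rfl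
    obtain ⟨D, b, hDb⟩ := col_zero_decomp g' hcol
    obtain ⟨T, hT, hTv⟩ := exists_row b
    have hdec : g' = T * emb D := Units.ext (by rw [hDb, Units.val_mul T, hTv]; rfl)
    obtain ⟨f, hf, h, hD⟩ := exists_decomp hc k D
    refine ⟨e⁻¹ * T * emb f, mul_mem (mul_mem (inv_mem he) hT) (emb_mem hf), h, ?_⟩
    have e1 : emb (dU (Pi.mulSingle (Fin.last k) h)) = dU (Pi.mulSingle (Fin.last (k + 1)) h) := by
      rw [emb_dU]
      congr 1
      funext i
      induction i using Fin.cases <;>
        simp [Pi.mulSingle_apply, ← Fin.succ_last, Fin.succ_inj, (Fin.succ_ne_zero _).symm]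
    rw [← e1, show g = e⁻¹ * g' by simp [g'], hdec, hD, map_mul]
    simp [mul_assoc]

/-- The elementary group is normal. -/
theorem el_normal [Nontrivial R] (hc : Cuts R) (k : ℕ) : (El R (k + 1)).Normal := by
  refine ⟨fun n hn g => ?_⟩
  obtain ⟨e, he, h, rfl⟩ := exists_decomp hc k g
  have := mul_mem (mul_mem he (dU_normalizes (Pi.mulSingle (Fin.last k) h) hn)) (inv_mem he)
  simpa [mul_assoc] using this

/-- Two pairs of elements splitting one. -/
structure Split (R : Type*) [Ring R] where
  s0 : R
  s1 : R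
  t0 : R
  t1 : R
  t0s0 : t0 * s0 = 1
  t1s1 : t1 * s1 = 1
  t0s1 : t0 * s1 = 0
  t1s0 : t1 * s0 = 0
  sum : s0 * t0 + s1 * t1 = 1

/-- The signed transposition of two indices. -/
def wey (i j : Fin k) : (Matrix (Fin k) (Fin k) R)ˣ := tu i j 1 * tu j i (-1) * tu i j 1

theorem wey_diag {i j : Fin k} (h : i ≠ j) (d : Fin k → Rˣ) :
    (wey i j : (Matrix (Fin k) (Fin k) R)ˣ) * dU d = dU (d ∘ Equiv.swap i j) * wey i j := by
  have hw : ((wey i j : (Matrix (Fin k) (Fin k) R)ˣ) : Matrix (Fin k) (Fin k) R) = 1 + Matrix.single i j 1 - Matrix.single j i 1 -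
      Matrix.single i i 1 - Matrix.single j j 1 := by
    rw [wey, Units.val_mul, Units.val_mul, tu_val h, tu_val h.symm]
    have e : Matrix.single j i (-1 : R) = - Matrix.single j i 1 := by
      ext a b
      simp only [Matrix.neg_apply, Matrix.single_apply]
      split_ifs <;> simp
    simp only [e, Matrix.add_mul, Matrix.mul_add, one_mul, mul_one, mul_neg, neg_mul,
      Matrix.single_mul_single_same, single_sq h]
    abel
  refine Units.ext ?_
  rw [Units.val_mul, Units.val_mul, hw, dU_val, dU_val]
  ext x y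
  rw [Matrix.mul_diagonal, Matrix.diagonal_mul]
  simp only [Matrix.sub_apply, Matrix.add_apply, Matrix.single_apply, Function.comp_apply]
  by_cases hxi : x = i
  · subst hxi
    by_cases hy : y = x
    · subst hy; simp [h, Ne.symm h]
    · by_cases hy' : y = j
      · subst hy'; simp [h, Ne.symm h]
      · simp [h, Ne.symm h, Ne.symm hy, Ne.symm hy']
  · by_cases hxj : x = j
    · subst hxj
      by_cases hy : y = x
      · subst hy; simp [h, Ne.symm h]
      · by_cases hy' : y = i
        · subst hy'; simp [h, Ne.symm h]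
        · simp [h, Ne.symm h, Ne.symm hy, Ne.symm hy']
    · rw [Equiv.swap_apply_of_ne_of_ne hxi hxj]
      by_cases hxy : x = y
      · subst hxy; simp [Ne.symm hxi, Ne.symm hxj]
      · simp [Ne.symm hxi, Ne.symm hxj, hxy]

/-- Every invertible matrix of size at least three is elementary. -/
theorem el_eq_top [Nontrivial R] (hc : Cuts R) (S : Split R) (phi : R →+* R)
    (hphi : ∀ a, phi a = S.s0 * a * S.t0 + S.s1 * phi a * S.t1) :
    ∀ k, 2 ≤ k → ∀ g : (Matrix (Fin (k + 1)) (Fin (k + 1)) R)ˣ, g ∈ El R (k + 1) := by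
  classical
  suffices base : ∀ h : Rˣ, dU (Pi.mulSingle (Fin.last 2) h) ∈ El R 3 by
    have all : ∀ k, 2 ≤ k → ∀ h : Rˣ, dU (Pi.mulSingle (Fin.last k) h) ∈ El R (k + 1) := by
      intro k hk
      induction k, hk using Nat.le_induction with
      | base => exact base
      | succ k _ ih =>
        intro h
        convert emb_mem (ih h) using 1
        rw [emb_dU]
        congr 1
        funext i
        induction i using Fin.cases <;>
          simp [Pi.mulSingle_apply, ← Fin.succ_last, Fin.succ_inj, (Fin.succ_ne_zero _).symm]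
    intro k hk g
    obtain ⟨e, he, h, rfl⟩ := exists_decomp hc k g
    exact mul_mem he (all k hk h)
  have := el_normal (R := R) hc 2
  set N := El R 3
  let q : (Matrix (Fin 3) (Fin 3) R)ˣ →* _ := QuotientGroup.mk' N
  let P : Fin 3 → Rˣ → (Matrix (Fin 3) (Fin 3) R)ˣ := fun i a => dU (Pi.mulSingle i a)
  have hq : ∀ {x}, x ∈ N → q x = 1 := fun hx => (QuotientGroup.eq_one_iff _).2 hx
  have hconj : ∀ (i j : Fin 3), i ≠ j → ∀ a, q (P i a) = q (P j a) := by
    intro i j hij a
    have hd : Pi.mulSingle (M := fun _ => Rˣ) i a ∘ Equiv.swap i j = Pi.mulSingle j a := by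
      funext x
      simp [Pi.mulSingle_apply, Equiv.swap_apply_eq_iff]
    have h := congrArg q (wey_diag hij (Pi.mulSingle i a))
    rw [hd] at h
    have hw : q (wey i j) = 1 := hq (mul_mem (mul_mem (tu_mem _ _ _) (tu_mem _ _ _)) (tu_mem _ _ _))
    simpa [map_mul, hw, P] using h
  have hcomm : ∀ (a : Rˣ) (g : (Matrix (Fin 3) (Fin 3) R)ˣ), q g * q (P 0 a) = q (P 0 a) * q g := by
    intro a g
    obtain ⟨e, he, h, rfl⟩ := exists_decomp hc 2 g
    rw [map_mul, hq he, one_mul]
    show q (P (Fin.last 2) h) * q (P 0 a) = q (P 0 a) * q (P (Fin.last 2) h)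
    rw [← map_mul, ← map_mul]
    congr 1
    simp only [P, ← map_mul]
    refine congrArg (fun d : Fin 3 → Rˣ => q (dU d)) ?_
    funext i
    fin_cases i <;> simp [Pi.mulSingle_apply]
  intro h
  let U : (Matrix (Fin 3) (Fin 3) R)ˣ :=
    { val := !![S.s0, S.s1, 0; 0, 0, S.t0; 0, 0, S.t1]
      inv := !![S.t0, 0, 0; S.t1, 0, 0; 0, S.s0, S.s1]
      val_inv := by
        ext x y
        fin_cases x <;> fin_cases y <;>
          simp [Matrix.mul_apply, Fin.sum_univ_three, S.t0s0, S.t1s1, S.t0s1,
            S.t1s0, S.sum]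
      inv_val := by
        ext x y
        fin_cases x <;> fin_cases y <;>
          simp [Matrix.mul_apply, Fin.sum_univ_three, S.t0s0, S.t1s1, S.t0s1,
            S.t1s0, S.sum] }
  set h' : Rˣ := Units.map (phi : R →* R) h
  have hU : U * (P 0 h * P 1 h') = P 0 h' * U := by
    have e0 : phi (h : R) * S.s0 = S.s0 * h := by
      conv_lhs => rw [hphi]
      simp [add_mul, mul_assoc, S.t0s0, S.t1s0]
    have e1 : phi (h : R) * S.s1 = S.s1 * phi (h : R) := by
      conv_lhs => rw [hphi]
      simp [add_mul, mul_assoc, S.t0s1, S.t1s1]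
    refine Units.ext ?_
    simp only [Units.val_mul, P, dU_val, U, Matrix.diagonal_mul_diagonal]
    ext x y
    rw [Matrix.mul_diagonal, Matrix.diagonal_mul]
    fin_cases x <;> fin_cases y <;> simp [Pi.mulSingle_apply, h', e0, e1]
  have hUq := congrArg q hU
  simp only [map_mul, hconj 1 0 (by decide) h'] at hUq
  rw [← hcomm h' U] at hUq
  have h0 : q (P 0 h) = 1 := by
    have := mul_left_cancel hUq
    exact mul_eq_right.1 this
  refine (QuotientGroup.eq_one_iff _).1 ?_
  show q (P (Fin.last 2) h) = 1
  rw [hconj (Fin.last 2) 0 (by decide)]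
  exact h0

end Vale.Agent.P193.K2
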