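import Vale.Agent.P193.K2.Main

/-!
The group half: a finitely presented simple group containing the units of a ring with a swindle.
-/

noncomputable section

namespace Vale.Agent.P193.K2

open Vale.Agent.P193.Steinberg

/-- A finitely presented ring of characteristic two with trivial centre, a swindle, and uniform
cutting down of nonzero elements has its unit group embedded in a finitely presented simple group,
the group of invertible matrices of size fifteen. -/
theorem groupHalf {R : Type*} [Ring R] [Nontrivial R] {X : Type*} [Finite X]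
    (π : FreeAlgebra ℤ X →+* R) (hπ : Function.Surjective π) {F : Set (FreeAlgebra ℤ X)}
    (hF : F.Finite) (hker : ∀ a, π a = 0 → a ∈ TwoSidedIdeal.span F) (hF0 : ∀ f ∈ F, π f = 0)
    (two : (2 : R) = 0) (hu : UCuts R) (S : Split R) (phi : R →+* R)
    (hphi : ∀ a, phi a = S.s0 * a * S.t0 + S.s1 * phi a * S.t1)
    (hcenter : ∀ z : R, (∀ r, z * r = r * z) → z = 0 ∨ z = 1) :
    Group.IsFinitelyPresented (GLn 15 R) ∧ IsSimpleGroup (GLn 15 R) ∧
      ∃ i : Rˣ →* GLn 15 R, Function.Injective i := by
  have hzd : ∃ s t : R, s ≠ 0 ∧ t ≠ 0 ∧ t * s = 0 := by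
    refine ⟨S.s0, S.t1, fun h => ?_, fun h => ?_, S.t1s0⟩
    · have := S.t0s0
      rw [h, mul_zero] at this
      exact zero_ne_one this
    · have := S.t1s1
      rw [h, zero_mul] at this
      exact zero_ne_one this
  obtain ⟨hfp, hs⟩ := elemGroup_isFinitelyPresented_isSimple (n := 15) (by norm_num) π hπ hF hker hF0
    (toGL_bijective two hu S phi hphi).1 hu.cuts hzd hcenter
  let e : elemGroup 15 R ≃* GLn 15 R :=
    (MulEquiv.subgroupCongr (elemGroup_eq_top two hu S phi hphi)).trans Subgroup.topEquiv
  exact ⟨@Group.IsFinitelyPresented.equiv _ _ _ _ e hfp, @MulEquiv.isSimpleGroup _ _ _ _ hs e.symm,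
    diagUnit 0, diagUnit_injective 0⟩

open Matrix in
/-- The units of a ring split as a sum of copies of itself are the invertible matrices. -/
theorem exists_units_equiv {R : Type*} [Ring R] (S : Split R) (m : ℕ) :
    Nonempty (Rˣ ≃* GLn (m + 1) R) := by
  obtain ⟨φ, φ', h1, h2⟩ := exists_col S m
  have h1' : ∑ i, φ' i * φ i = 1 := h1
  have h2' : ∀ i j, φ i * φ' j = (1 : Matrix (Fin (m + 1)) (Fin (m + 1)) R) i j := fun i j => by
    rw [← h2, vecMulVec_apply]
  refine ⟨Units.mapEquiv
    { toFun := fun r => Matrix.of fun i j => φ i * r * φ' j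
      invFun := fun M => ∑ i, ∑ j, φ' i * M i j * φ j
      left_inv := fun r => ?_
      right_inv := fun M => ?_
      map_mul' := fun r r' => ?_ }⟩
  · calc ∑ i, ∑ j, φ' i * (φ i * r * φ' j) * φ j
        = (∑ i, φ' i * φ i) * r * ∑ j, φ' j * φ j := by
          simp only [Finset.sum_mul, Finset.mul_sum, mul_assoc]
          exact Finset.sum_comm
      _ = r := by rw [h1', one_mul, mul_one]
  · ext a b
    show φ a * (∑ i, ∑ j, φ' i * M i j * φ j) * φ' b = M a b
    calc φ a * (∑ i, ∑ j, φ' i * M i j * φ j) * φ' b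
        = ∑ i, ∑ j, (φ a * φ' i) * M i j * (φ j * φ' b) := by
          simp only [Finset.sum_mul, Finset.mul_sum, mul_assoc]
      _ = M a b := by simp [h2', Matrix.one_apply]
  · ext a b
    simp only [Matrix.of_apply, Matrix.mul_apply]
    calc φ a * (r * r') * φ' b = φ a * r * (∑ i, φ' i * φ i) * r' * φ' b := by
          rw [h1', mul_one]; simp only [mul_assoc]
      _ = ∑ i, φ a * r * φ' i * (φ i * r' * φ' b) := by
          simp only [Finset.sum_mul, Finset.mul_sum, mul_assoc]

end Vale.Agent.P193.K2
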