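import Vale.Agent.P193.Steinberg.Basic
import Vale.Agent.P193.K2.Elementary

/-!
Maps between Steinberg groups and linear groups, and the centrality of stabilised kernel elements.
-/

noncomputable section

namespace Vale.Agent.P193.K2

open Matrix Vale.Agent.P193.Steinberg
open scoped commutatorElement

variable {R : Type*} [Ring R] {n k : ℕ}

theorem tu_rels : Rels (fun i j r => (tu i j r : (Matrix (Fin n) (Fin n) R)ˣ)) where
  add i j h r s := by
    refine Units.ext ?_
    rw [Units.val_mul, tu_val h, tu_val h, tu_val h, Matrix.single_add, add_mul, one_mul, mul_add,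
      mul_one, single_sq h]
    abel
  mul i j l hij hjl hil r s := by
    refine Units.ext ?_
    simp only [commutatorElement_def, Units.val_mul, tu_val hij, tu_val hjl, tu_val hil,
      tu_inv hij, tu_inv hjl]
    have e1 : Matrix.single i j r * Matrix.single j l s =
        (Matrix.single i l (r * s) : Matrix (Fin n) (Fin n) R) := by simp
    have e2 : Matrix.single j l s * Matrix.single i j r = (0 : Matrix (Fin n) (Fin n) R) := by
      simp [hil.symm]
    have e3 : Matrix.single i l (r * s) * Matrix.single i j r = (0 : Matrix (Fin n) (Fin n) R) := by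
      simp [hil.symm]
    have e4 : Matrix.single i l (r * s) * Matrix.single j l s = (0 : Matrix (Fin n) (Fin n) R) := by
      simp [hjl.symm]
    simp only [mul_add, add_mul, mul_sub, sub_mul, one_mul, mul_one, ← mul_assoc, e1, e2, e3, e4,
      single_sq hij, single_sq hjl, zero_mul, add_zero, sub_zero, zero_add]
    abel
  comm i j a b hij hab hja hib r s := by
    refine Units.ext ?_
    show (tu i j r : Matrix (Fin n) (Fin n) R) * tu a b s = tu a b s * tu i j r
    rw [tu_val hij, tu_val hab]
    have e1 : Matrix.single i j r * Matrix.single a b s = (0 : Matrix (Fin n) (Fin n) R) := by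
      simp [hja]
    have e2 : Matrix.single a b s * Matrix.single i j r = (0 : Matrix (Fin n) (Fin n) R) := by
      simp [Ne.symm hib]
    simp only [mul_add, add_mul, one_mul, mul_one, e1, e2, add_zero]
    abel

/-- The map to invertible matrices. -/
def toG : St n R →* (Matrix (Fin n) (Fin n) R)ˣ := lift tu_rels

theorem toG_xst (i j : Fin n) (r : R) : toG (xst i j r) = tu i j r := by
  by_cases h : i = j
  · subst h; simp [xst, tu]
  · exact lift_xst _ h r

theorem el_le_range : El R n ≤ (toG (R := R) (n := n)).range := by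
  refine (Subgroup.closure_le _).2 ?_
  rintro _ ⟨i, j, r, rfl⟩
  exact ⟨xst i j r, toG_xst i j r⟩

/-- Relabelling indices. -/
def idxMap {a b : ℕ} (f : Fin a → Fin b) (hf : Function.Injective f) : St a R →* St b R :=
  lift (x := fun i j r => xst (f i) (f j) r)
    { add := fun i j h r s => xst_rels.add _ _ (hf.ne h) r s
      mul := fun i j l h h' h'' r s => xst_rels.mul _ _ _ (hf.ne h) (hf.ne h') (hf.ne h'') r s
      comm := fun i j a b h h' h'' h3 r s =>
        xst_rels.comm _ _ _ _ (hf.ne h) (hf.ne h') (hf.ne h'') (hf.ne h3) r s }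

theorem idxMap_xst {a b : ℕ} (f : Fin a → Fin b) (hf : Function.Injective f) (i j : Fin a) (r : R) :
    idxMap f hf (xst i j r) = xst (f i) (f j) r := by
  by_cases h : i = j
  · subst h; simp [xst]
  · exact lift_xst _ h r

theorem idxMap_idxMap {a b c : ℕ} (f : Fin a → Fin b) (hf : Function.Injective f)
    (g : Fin b → Fin c) (hg : Function.Injective g) (x : St a R) :
    idxMap g hg (idxMap f hf x) = idxMap (g ∘ f) (hg.comp hf) x := by
  refine DFunLike.congr_fun (hom_ext (f := (idxMap g hg).comp (idxMap f hf))
    (g := idxMap (g ∘ f) (hg.comp hf)) fun i j r _ => ?_) x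
  simp [idxMap_xst]

theorem idxMap_congr {a b : ℕ} {f g : Fin a → Fin b} (hf : Function.Injective f)
    (hg : Function.Injective g) (h : f = g) (x : St a R) : idxMap f hf x = idxMap g hg x := by
  subst h; rfl

/-- Stabilisation: a new first index. -/
def stab : St k R →* St (k + 1) R := idxMap Fin.succ (Fin.succ_injective _)

theorem stab_xst (i j : Fin k) (r : R) : stab (xst i j r) = xst i.succ j.succ r := idxMap_xst _ _ _ _ _

theorem toG_stab (x : St k R) : toG (stab x) = emb (toG x) := by
  refine DFunLike.congr_fun (hom_ext (f := toG.comp stab) (g := emb.comp toG) fun i j r _ => ?_) x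
  simp [stab_xst, toG_xst, emb_tu]

theorem xst_add {i j : Fin n} (h : i ≠ j) (r s : R) :
    xst i j (r + s) = xst i j r * (xst i j s : St n R) := xst_rels.add i j h r s

/-- One column entry. -/
def colHom (i : Fin k) : Multiplicative R →* St (k + 1) R where
  toFun r := xst i.succ 0 (Multiplicative.toAdd r)
  map_one' := xst_rels.zero (Fin.succ_ne_zero i)
  map_mul' r s := xst_add (Fin.succ_ne_zero i) _ _

/-- One row entry. -/
def rowHom (i : Fin k) : Multiplicative R →* St (k + 1) R where
  toFun r := xst 0 i.succ (Multiplicative.toAdd r)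
  map_one' := xst_rels.zero (Fin.succ_ne_zero i).symm
  map_mul' r s := xst_add (Fin.succ_ne_zero i).symm _ _

theorem colHom_comm : Pairwise fun i j : Fin k =>
    ∀ x y, Commute (colHom (R := R) i x) (colHom j y) := fun i j _ _ _ =>
  xst_rels.comm _ _ _ _ (Fin.succ_ne_zero i) (Fin.succ_ne_zero j) (Fin.succ_ne_zero j).symm
    (Fin.succ_ne_zero i) _ _

theorem rowHom_comm : Pairwise fun i j : Fin k =>
    ∀ x y, Commute (rowHom (R := R) i x) (rowHom j y) := fun i j _ _ _ =>
  xst_rels.comm _ _ _ _ (Fin.succ_ne_zero i).symm (Fin.succ_ne_zero j).symm (Fin.succ_ne_zero i)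
    (Fin.succ_ne_zero j).symm _ _

/-- Column translations. -/
def colv (v : Fin k → R) : St (k + 1) R :=
  MonoidHom.noncommPiCoprod colHom colHom_comm fun i => Multiplicative.ofAdd (v i)

/-- Row translations. -/
def rowv (v : Fin k → R) : St (k + 1) R :=
  MonoidHom.noncommPiCoprod rowHom rowHom_comm fun i => Multiplicative.ofAdd (v i)

theorem colv_add (v w : Fin k → R) : colv (v + w) = colv v * colv w := by
  rw [colv, colv, colv, ← map_mul]; rfl

theorem rowv_add (v w : Fin k → R) : rowv (v + w) = rowv v * rowv w := by
  rw [rowv, rowv, rowv, ← map_mul]; rfl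

theorem colv_single (i : Fin k) (r : R) : colv (Pi.single i r) = xst i.succ 0 r := by
  have e : (fun l => Multiplicative.ofAdd ((Pi.single i r : Fin k → R) l)) =
      Pi.mulSingle i (Multiplicative.ofAdd r) := by
    funext l; by_cases h : l = i <;> simp [h]
  rw [colv, e, MonoidHom.noncommPiCoprod_mulSingle]
  rfl

theorem rowv_single (i : Fin k) (r : R) : rowv (Pi.single i r) = xst 0 i.succ r := by
  have e : (fun l => Multiplicative.ofAdd ((Pi.single i r : Fin k → R) l)) =
      Pi.mulSingle i (Multiplicative.ofAdd r) := by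
    funext l; by_cases h : l = i <;> simp [h]
  rw [rowv, e, MonoidHom.noncommPiCoprod_mulSingle]
  rfl

theorem colv_zero : colv (0 : Fin k → R) = 1 := by rw [colv]; exact map_one _

theorem rowv_zero : rowv (0 : Fin k → R) = 1 := by rw [rowv]; exact map_one _

/-- Additive families agreeing on single entries agree. -/
theorem ext_single {M : Type*} [Monoid M] (F G : (Fin k → R) → M) (hF0 : F 0 = 1) (hG0 : G 0 = 1)
    (hF : ∀ v w, F (v + w) = F v * F w) (hG : ∀ v w, G (v + w) = G v * G w)
    (h : ∀ i r, F (Pi.single i r) = G (Pi.single i r)) (v : Fin k → R) : F v = G v := by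
  classical
  rw [← Finset.univ_sum_single v]
  refine Finset.sum_induction (fun j => (Pi.single j (v j) : Fin k → R)) (fun w => F w = G w) ?_
    (hF0.trans hG0.symm) fun j _ => h j _
  intro a b ha hb
  rw [hF, hG, ha, hb]

theorem rowv_mem {K : Subgroup (St (k + 1) R)} {v : Fin k → R}
    (h : ∀ i, v i ≠ 0 → xst 0 i.succ (v i) ∈ K) : rowv v ∈ K := by
  classical
  rw [← Finset.univ_sum_single v]
  refine Finset.sum_induction (fun j => (Pi.single j (v j) : Fin k → R)) (fun w => rowv w ∈ K) ?_
    (by rw [rowv_zero]; exact one_mem K) fun j _ => ?_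
  · intro a b ha hb
    rw [rowv_add]
    exact mul_mem ha hb
  · by_cases hj : v j = 0
    · rw [hj, Pi.single_zero, rowv_zero]; exact one_mem K
    · rw [rowv_single]; exact h j hj

theorem toG_rowv (v : Fin k → R) :
    (toG (rowv v) : Matrix (Fin (k + 1)) (Fin (k + 1)) R) = rowM v := by
  refine ext_single (fun v => (toG (rowv v) : Matrix (Fin (k + 1)) (Fin (k + 1)) R)) rowM ?_
    rowM_zero (fun v w => ?_) rowM_add (fun i r => ?_) v
  · show ((toG (rowv (0 : Fin k → R)) : (Matrix (Fin (k + 1)) (Fin (k + 1)) R)ˣ) : Matrix (Fin (k + 1)) (Fin (k + 1)) R) = 1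
    rw [rowv_zero, map_one]; rfl
  · show (toG (rowv (v + w)) : Matrix (Fin (k + 1)) (Fin (k + 1)) R) = _
    rw [rowv_add, map_mul]; rfl
  · show (toG (rowv (Pi.single i r)) : Matrix (Fin (k + 1)) (Fin (k + 1)) R) = _
    rw [rowv_single, toG_xst, tu_row]

theorem conj_colv (g : St k R) : ∀ v : Fin k → R,
    stab g * colv v * (stab g)⁻¹ =
      colv ((toG g : Matrix (Fin k) (Fin k) R) *ᵥ v) := by
  have hg : g ∈ Subgroup.closure {x : St k R | ∃ i j r, i ≠ j ∧ x = xst i j r} := by
    rw [closure_xst]; trivial
  induction hg using Subgroup.closure_induction with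
  | mem x hx =>
    obtain ⟨a, b, r, hab, rfl⟩ := hx
    intro v
    rw [stab_xst, toG_xst]
    refine ext_single (fun v => xst a.succ b.succ r * colv v * (xst a.succ b.succ r)⁻¹)
      (fun v => colv ((tu a b r : Matrix (Fin k) (Fin k) R) *ᵥ v)) (by simp [colv_zero])
      (by simp [colv_zero]) (fun v w => by simp [colv_add, mul_assoc])
      (fun v w => by simp [mulVec_add, colv_add]) (fun l s => ?_) v
    have hsab : a.succ ≠ b.succ := (Fin.succ_injective _).ne hab
    rw [tu_val hab, add_mulVec, one_mulVec, colv_add, colv_single, single_mulVec]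
    by_cases hl : l = b
    · subst hl
      have e : Function.update (0 : Fin k → R) a (r * (Pi.single l s : Fin k → R) l) =
          Pi.single a (r * s) := by
        funext x; simp [Function.update_apply, Pi.single_apply]
      rw [e, colv_single]
      have hc := xst_rels.mul a.succ l.succ 0 hsab (Fin.succ_ne_zero l) (Fin.succ_ne_zero a) r s
      have hcomm := xst_rels.comm a.succ 0 l.succ 0 (Fin.succ_ne_zero a) (Fin.succ_ne_zero l)
        (Fin.succ_ne_zero l).symm (Fin.succ_ne_zero a) (r * s) s
      rw [← hcomm.eq, ← hc, commutatorElement_def]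
      group
    · have e : Function.update (0 : Fin k → R) a (r * (Pi.single l s : Fin k → R) b) = 0 := by
        funext x; simp [Function.update_apply, Ne.symm hl]
      rw [e, colv_zero, mul_one]
      have hcomm := xst_rels.comm a.succ b.succ l.succ 0 hsab (Fin.succ_ne_zero l)
        ((Fin.succ_injective _).ne (Ne.symm hl)) (Fin.succ_ne_zero a) r s
      rw [hcomm.eq]
      group
  | one => intro v; simp
  | mul x y _ _ hx hy =>
    intro v
    rw [map_mul, map_mul, Units.val_mul, ← mulVec_mulVec, ← hx, ← hy]
    group
  | inv x _ hx =>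
    intro v
    have h := hx ((↑(toG x)⁻¹ : Matrix (Fin k) (Fin k) R) *ᵥ v)
    rw [mulVec_mulVec, (toG x).mul_inv, one_mulVec] at h
    rw [map_inv, map_inv, ← h]
    group

theorem conj_rowv (g : St k R) : ∀ v : Fin k → R,
    stab g * rowv v * (stab g)⁻¹ =
      rowv (v ᵥ* (↑(toG g)⁻¹ : Matrix (Fin k) (Fin k) R)) := by
  have hg : g ∈ Subgroup.closure {x : St k R | ∃ i j r, i ≠ j ∧ x = xst i j r} := by
    rw [closure_xst]; trivial
  induction hg using Subgroup.closure_induction with
  | mem x hx =>
    obtain ⟨a, b, r, hab, rfl⟩ := hx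
    intro v
    rw [stab_xst, toG_xst]
    refine ext_single (fun v => xst a.succ b.succ r * rowv v * (xst a.succ b.succ r)⁻¹)
      (fun v => rowv (v ᵥ* (↑(tu a b r)⁻¹ : Matrix (Fin k) (Fin k) R))) (by simp [rowv_zero])
      (by simp [rowv_zero]) (fun v w => by simp [rowv_add, mul_assoc])
      (fun v w => by simp [add_vecMul, rowv_add]) (fun l s => ?_) v
    have hsab : a.succ ≠ b.succ := (Fin.succ_injective _).ne hab
    rw [rowv_single]
    by_cases hl : l = a
    · subst hl
      have e : (Pi.single l s : Fin k → R) ᵥ* (↑(tu l b r)⁻¹ : Matrix (Fin k) (Fin k) R) =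
          Pi.single l s + Pi.single b (-(s * r)) := by
        rw [tu_inv hab, single_vecMul]
        funext x
        by_cases h1 : x = l
        · subst h1
          simp [mul_sub, hab, Ne.symm hab]
        · by_cases h2 : x = b
          · subst h2
            simp [mul_sub, h1, Ne.symm h1]
          · simp [mul_sub, h1, h2, Ne.symm h1, Ne.symm h2]
      rw [e, rowv_add, rowv_single, rowv_single, xst_rels.neg (Fin.succ_ne_zero b).symm]
      have hc := xst_rels.mul 0 l.succ b.succ (Fin.succ_ne_zero l).symm hsab
        (Fin.succ_ne_zero b).symm s r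
      have hcomm := xst_rels.comm 0 b.succ 0 l.succ (Fin.succ_ne_zero b).symm
        (Fin.succ_ne_zero l).symm (Fin.succ_ne_zero b) (Fin.succ_ne_zero l).symm (s * r) s
      rw [hcomm.inv_left.symm.eq, ← hc, commutatorElement_def]
      group
    · have e : (Pi.single l s : Fin k → R) ᵥ* (↑(tu a b r)⁻¹ : Matrix (Fin k) (Fin k) R) =
          Pi.single l s := by
        rw [tu_inv hab, single_vecMul]
        funext x
        simp [Matrix.one_apply, Matrix.single_apply, Pi.single_apply, mul_sub, Ne.symm hl, eq_comm]
      rw [e, rowv_single]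
      have hcomm := xst_rels.comm a.succ b.succ 0 l.succ hsab (Fin.succ_ne_zero l).symm
        (Fin.succ_ne_zero b) ((Fin.succ_injective _).ne (Ne.symm hl)) r s
      rw [hcomm.eq]
      group
  | one => intro v; simp
  | mul x y _ _ hx hy =>
    intro v
    rw [map_mul, map_mul, _root_.mul_inv_rev, _root_.mul_inv_rev, Units.val_mul, ← vecMul_vecMul,
      ← hx, ← hy]
    group
  | inv x _ hx =>
    intro v
    have h := hx (v ᵥ* (toG x : Matrix (Fin k) (Fin k) R))
    rw [vecMul_vecMul, (toG x).mul_inv, vecMul_one] at h
    rw [map_inv, map_inv, inv_inv (toG x), ← h]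
    group

/-- Stabilised kernel elements are central. -/
theorem stab_central {c : St k R} (hc : toG c = 1) (g : St (k + 1) R) : Commute (stab c) g := by
  have hg : g ∈ Subgroup.centralizer {stab c} := by
    have hcl : (⊤ : Subgroup (St (k + 1) R)) ≤ Subgroup.centralizer {stab c} := by
      rw [← closure_xst, Subgroup.closure_le]
      rintro _ ⟨i, j, r, hij, rfl⟩
      show xst i j r ∈ Subgroup.centralizer {stab c}
      have hcol : ∀ (i : Fin k) r, xst i.succ 0 r ∈ Subgroup.centralizer {stab c} := fun i r => by
        refine Subgroup.mem_centralizer_singleton_iff.2 ?_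
        have h := conj_colv c (Pi.single i r)
        rw [hc, Units.val_one, one_mulVec, colv_single, mul_inv_eq_iff_eq_mul] at h
        exact h.symm
      have hrow : ∀ (i : Fin k) r, xst 0 i.succ r ∈ Subgroup.centralizer {stab c} := fun i r => by
        refine Subgroup.mem_centralizer_singleton_iff.2 ?_
        have h := conj_rowv c (Pi.single i r)
        rw [hc, inv_one, Units.val_one, vecMul_one, rowv_single, mul_inv_eq_iff_eq_mul] at h
        exact h.symm
      induction i using Fin.cases with
      | zero =>
        induction j using Fin.cases with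
        | zero => exact absurd rfl hij
        | succ j => exact hrow j r
      | succ i =>
        induction j using Fin.cases with
        | zero => exact hcol i r
        | succ j =>
          rw [← mul_one r, ← xst_rels.mul i.succ 0 j.succ (Fin.succ_ne_zero i)
            (Fin.succ_ne_zero j).symm hij r 1, commutatorElement_def]
          exact mul_mem (mul_mem (mul_mem (hcol i r) (hrow j 1)) (inv_mem (hcol i r)))
            (inv_mem (hrow j 1))
    exact hcl trivial
  exact (Subgroup.mem_centralizer_singleton_iff.1 hg).symm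

end Vale.Agent.P193.K2
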