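import Vale.Agent.P193.K2.GroupHalf
import Vale.Agent.P193.Assembly

/-!
The group half in the form the assembly asks for.
-/

namespace Vale.Agent.P193.K2

open Vale.Agent.P193 Vale.Agent.P193.Steinberg

/-- The stability module provides the group half. -/
theorem groupHalf_holds : GroupHalf := by
  intro R _ _ hR F hU _
  have := hR
  have two : (2 : R) = 0 := by
    have h := map_ofNat (algebraMap (ZMod 2) R) 2
    rw [show (2 : ZMod 2) = 0 from rfl, map_zero] at h
    exact h.symm
  let S : Split R := ⟨F.s₀, F.s₁, F.t₀, F.t₁, F.t₀s₀, F.t₁s₁, F.t₀s₁, F.t₁s₀, F.sum_eq⟩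
  have hu : UCuts R := hU
  refine ⟨15, by norm_num, (toGL_bijective two hu S F.phi.toRingHom F.phi_eq).1, fun g => ?_⟩
  rw [elemGroup_eq_top two hu S F.phi.toRingHom F.phi_eq]
  trivial

end Vale.Agent.P193.K2
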