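import Vale.Agent.P193.K2.Maps

/-!
Surjective stability for kernels of Steinberg groups over rings where finitely many nonzero
elements can be cut down to one simultaneously.
-/

noncomputable section

namespace Vale.Agent.P193.K2

open Matrix Vale.Agent.P193.Steinberg
open scoped commutatorElement

variable {R : Type*} [Ring R] {n k : ℕ}

/-- Finitely many nonzero elements can be cut down to one with a common right factor. -/
def UCuts (R : Type*) [Ring R] : Prop :=
  ∀ F : Finset R, (∀ a ∈ F, a ≠ 0) → ∃ x : R, ∀ a ∈ F, ∃ y : R, y * a * x = 1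

theorem UCuts.cuts (h : UCuts R) : Cuts R := fun a ha => by
  obtain ⟨x, hx⟩ := h {a} (by simpa using ha)
  obtain ⟨y, hy⟩ := hx a (Finset.mem_singleton_self a)
  exact ⟨y, x, hy⟩

/-- A column and a row making the ring a sum of `m + 1` copies of itself. -/
theorem exists_col (S : Split R) : ∀ m : ℕ, ∃ φ φ' : Fin (m + 1) → R,
    φ' ⬝ᵥ φ = 1 ∧ vecMulVec φ φ' = (1 : Matrix (Fin (m + 1)) (Fin (m + 1)) R)
  | 0 => ⟨fun _ => 1, fun _ => 1, by simp [dotProduct], by
      ext i j; rw [Fin.eq_zero i, Fin.eq_zero j]; simp [vecMulVec_apply]⟩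
  | m + 1 => by
    obtain ⟨φ, φ', h1, h2⟩ := exists_col S m
    refine ⟨Fin.cons S.t0 fun i => φ i * S.t1, Fin.cons S.s0 fun i => S.s1 * φ' i, ?_, ?_⟩
    · simp only [dotProduct, Fin.sum_univ_succ, Fin.cons_zero, Fin.cons_succ]
      simp only [dotProduct] at h1
      have e : ∀ i, S.s1 * φ' i * (φ i * S.t1) = S.s1 * (φ' i * φ i) * S.t1 := fun i => by
        simp only [mul_assoc]
      simp only [Fin.sum_univ_succ] at h1
      rw [e, Finset.sum_congr rfl (fun (i : Fin m) _ => e i.succ), ← Finset.sum_mul,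
        ← Finset.mul_sum, ← add_mul, ← mul_add, h1, mul_one, S.sum]
    · ext i j
      have h := fun a b => congrFun (congrFun h2 a) b
      simp only [vecMulVec_apply] at h ⊢
      induction i using Fin.cases <;> induction j using Fin.cases
      · simp [S.t0s0]
      · simp [← mul_assoc, S.t0s1, (Fin.succ_ne_zero _).symm]
      · simp [mul_assoc, S.t1s0, Fin.succ_ne_zero _]
      · rename_i a b
        simp only [Fin.cons_succ, mul_assoc]
        rw [← mul_assoc S.t1, S.t1s1, one_mul, h a b]
        simp [Matrix.one_apply]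

/-- Elements fixing the first basis vector from the first row and stabilisation. -/
def H (R : Type*) [Ring R] (k : ℕ) : Subgroup (St (k + 1) R) :=
  Subgroup.closure {x | ∃ i j r, i ≠ j ∧ j ≠ 0 ∧ x = xst i j r}

theorem xst_mem_H {i j : Fin (k + 1)} (h : i ≠ j) (hj : j ≠ 0) (r : R) : xst i j r ∈ H R k :=
  Subgroup.subset_closure ⟨i, j, r, h, hj, rfl⟩

theorem stab_mem_H (l : St k R) : stab l ∈ H R k := by
  have h : (⊤ : Subgroup (St k R)) ≤ (H R k).comap stab := by
    rw [← closure_xst, Subgroup.closure_le]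
    rintro _ ⟨i, j, r, hij, rfl⟩
    show stab (xst i j r) ∈ H R k
    rw [stab_xst]
    exact xst_mem_H ((Fin.succ_injective _).ne hij) (Fin.succ_ne_zero j) r
  exact h trivial

theorem rowv_mem_H (v : Fin k → R) : rowv v ∈ H R k :=
  rowv_mem fun i _ => xst_mem_H (Fin.succ_ne_zero i).symm (Fin.succ_ne_zero i) _

theorem mem_H_decomp {g : St (k + 1) R} (hg : g ∈ H R k) :
    ∃ (v : Fin k → R) (l : St k R), g = rowv v * stab l := by
  induction hg using Subgroup.closure_induction with
  | mem x hx =>
    obtain ⟨i, j, r, hij, hj, rfl⟩ := hx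
    obtain ⟨j', rfl⟩ := Fin.exists_succ_eq.2 hj
    induction i using Fin.cases with
    | zero => exact ⟨Pi.single j' r, 1, by rw [rowv_single, map_one, mul_one]⟩
    | succ i => exact ⟨0, xst i j' r, by rw [rowv_zero, stab_xst, one_mul]⟩
  | one => exact ⟨0, 1, by rw [rowv_zero, map_one, one_mul]⟩
  | mul x y _ _ hx hy =>
    obtain ⟨v, l, rfl⟩ := hx
    obtain ⟨w, l', rfl⟩ := hy
    refine ⟨v + w ᵥ* (↑(toG l)⁻¹ : Matrix (Fin k) (Fin k) R), l * l', ?_⟩
    rw [rowv_add, ← conj_rowv, map_mul]
    group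
  | inv x _ hx =>
    obtain ⟨v, l, rfl⟩ := hx
    refine ⟨(-v) ᵥ* (toG l : Matrix (Fin k) (Fin k) R), l⁻¹, ?_⟩
    have h := conj_rowv l⁻¹ (-v)
    rw [map_inv toG, inv_inv, map_inv] at h
    rw [← h, map_inv]
    have e : rowv (-v) = (rowv v)⁻¹ := by
      refine eq_inv_of_mul_eq_one_left ?_
      rw [← rowv_add, neg_add_cancel, rowv_zero]
    rw [e]
    group

theorem toG_decomp (v : Fin k → R) (l : St k R) :
    (toG (rowv v * stab l) : Matrix (Fin (k + 1)) (Fin (k + 1)) R) =
      rowM v * embM (toG l : Matrix (Fin k) (Fin k) R) := by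
  rw [map_mul, Units.val_mul, toG_rowv, toG_stab]
  rfl

theorem H_inter_ker {g : St (k + 1) R} (hg : g ∈ H R k) (h1 : toG g = 1) :
    ∃ c : St k R, toG c = 1 ∧ g = stab c := by
  obtain ⟨v, l, rfl⟩ := mem_H_decomp hg
  have h := congrArg (fun u : (Matrix (Fin (k + 1)) (Fin (k + 1)) R)ˣ => u.val) h1
  simp only [toG_decomp, Units.val_one] at h
  have hl : toG l = 1 := by
    refine Units.ext ?_
    ext i j
    have h' := congrFun (congrFun h i.succ) j.succ
    simpa [rowM, embM, Matrix.mul_apply, Fin.sum_univ_succ, Matrix.one_apply] using h'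
  have hv : v = 0 := by
    funext j
    have h' := congrFun (congrFun h 0) j.succ
    simpa [rowM, embM, Matrix.mul_apply, Fin.sum_univ_succ, Matrix.one_apply, hl,
      (Fin.succ_ne_zero j).symm] using h'
  exact ⟨l, hl, by rw [hv, rowv_zero, one_mul]⟩

/-- The permuting element of two indices. -/
def wst (i j : Fin n) : St n R := xst i j 1 * xst j i 1 * xst i j 1

section Two

variable (two : (2 : R) = 0)

include two

theorem two_neg (r : R) : -r = r := by
  refine neg_eq_of_add_eq_zero_left ?_
  rw [← two_mul, two, zero_mul]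

theorem xst_inv (i j : Fin n) (r : R) : (xst i j r : St n R)⁻¹ = xst i j r := by
  by_cases h : i = j
  · subst h; simp [xst]
  · rw [← xst_rels.neg h, two_neg two]

theorem wst_inv (i j : Fin n) : (wst i j : St n R)⁻¹ = wst i j := by
  simp only [wst, _root_.mul_inv_rev, xst_inv two, mul_assoc]

theorem wst_wst (i j : Fin n) : (wst i j : St n R) * wst i j = 1 := by
  conv_lhs => arg 1; rw [← wst_inv two]
  rw [inv_mul_cancel]

/-- Conjugation by a permuting element, on entries with a third index. -/
theorem wst_conj_off {i j l : Fin n} (hij : i ≠ j) (hil : i ≠ l) (hjl : j ≠ l) (r : R) :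
    wst i j * xst i l r * wst i j = (xst j l r : St n R) ∧
      wst i j * xst l i r * wst i j = (xst l j r : St n R) ∧
      wst i j * xst j l r * wst i j = (xst i l r : St n R) ∧
      wst i j * xst l j r * wst i j = (xst l i r : St n R) := by
  set A : St n R := xst i j 1
  set B : St n R := xst j i 1
  have hA : A⁻¹ = A := xst_inv two _ _ _
  have hB : B⁻¹ = B := xst_inv two _ _ _
  have hw : ∀ g : St n R, wst i j * g * wst i j = A * (B * (A * g * A⁻¹) * B⁻¹) * A⁻¹ := fun g => by
    rw [hA, hB]; simp only [wst, A, B, mul_assoc]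
  have c1 : Commute A (xst i l r) := xst_rels.comm _ _ _ _ hij hil (Ne.symm hij) hil _ _
  have c2 : Commute B (xst j l r) := xst_rels.comm _ _ _ _ (Ne.symm hij) hjl hij hjl _ _
  have c3 : Commute B (xst l i r) := xst_rels.comm _ _ _ _ (Ne.symm hij) (Ne.symm hil) hil
    (Ne.symm hij) _ _
  have c4 : Commute A (xst l j r) := xst_rels.comm _ _ _ _ hij (Ne.symm hjl) hjl hij _ _
  have c12 : Commute (xst i l r : St n R) (xst j l r) :=
    xst_rels.comm _ _ _ _ hil hjl (Ne.symm hjl) hil _ _
  have c34 : Commute (xst l i r : St n R) (xst l j r) :=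
    xst_rels.comm _ _ _ _ (Ne.symm hil) (Ne.symm hjl) hil (Ne.symm hjl) _ _
  have sq : ∀ a b, a ≠ b → (xst a b r : St n R) * xst a b r = 1 := fun a b _ => by
    conv_lhs => arg 1; rw [← xst_inv two]
    rw [inv_mul_cancel]
  have eA : A * xst j l r * A⁻¹ = xst i l r * xst j l r := by
    have h := xst_rels.mul i j l hij hjl hil (1 : R) r
    rw [one_mul, commutatorElement_def] at h
    rw [← h]; simp only [A]; group
  have eB : B * xst i l r * B⁻¹ = xst j l r * xst i l r := by
    have h := xst_rels.mul j i l (Ne.symm hij) hil hjl (1 : R) r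
    rw [one_mul, commutatorElement_def] at h
    rw [← h]; simp only [B]; group
  have eA' : A * xst l i r * A⁻¹ = xst l i r * xst l j r := by
    have h := xst_rels.mul l i j (Ne.symm hil) hij (Ne.symm hjl) r (1 : R)
    rw [mul_one] at h
    have h' : (xst l j r : St n R)⁻¹ = ⁅A, xst l i r⁆ := by rw [← h, commutatorElement_inv]
    rw [xst_inv two] at h'
    rw [c34.eq, h', commutatorElement_def]; group
  have eB' : B * xst l j r * B⁻¹ = xst l j r * xst l i r := by
    have h := xst_rels.mul l j i (Ne.symm hjl) (Ne.symm hij) (Ne.symm hil) r (1 : R)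
    rw [mul_one] at h
    have h' : (xst l i r : St n R)⁻¹ = ⁅B, xst l j r⁆ := by rw [← h, commutatorElement_inv]
    rw [xst_inv two] at h'
    rw [← c34.eq, h', commutatorElement_def]; group
  have fix : ∀ {X Y : St n R}, Commute X Y → X * Y * X⁻¹ = Y := fun h => by rw [h.eq]; group
  have split : ∀ (X Y Z : St n R), X * (Y * Z) * X⁻¹ = X * Y * X⁻¹ * (X * Z * X⁻¹) := fun X Y Z => by
    group
  refine ⟨?_, ?_, ?_, ?_⟩
  · rw [hw, fix c1, eB, split, eA, fix c1, c12.eq, mul_assoc, sq i l hil, mul_one]
  · rw [hw, eA', split B, fix c3, eB', ← mul_assoc (xst l i r : St n R), c34.eq,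
      mul_assoc (xst l j r : St n R), sq l i (Ne.symm hil), mul_one, fix c4]
  · rw [hw, eA, split B, eB, fix c2, ← c12.eq, mul_assoc (xst i l r : St n R), sq j l hjl, mul_one, fix c1]
  · rw [hw, fix c4, eB', split A, fix c4, eA', c34.eq, ← mul_assoc, sq l j (Ne.symm hjl), one_mul]

/-- Conjugation by a permuting element. -/
theorem wst_conj (hn : 3 ≤ n) {i j : Fin n} (hij : i ≠ j) (a b : Fin n) (hab : a ≠ b) (r : R) :
    wst i j * xst a b r * wst i j = (xst (Equiv.swap i j a) (Equiv.swap i j b) r : St n R) := by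
  classical
  by_cases h : (a ≠ i ∧ a ≠ j) ∨ (b ≠ i ∧ b ≠ j)
  · have hoff : ∀ (x : Fin n), x ≠ i → x ≠ j → Equiv.swap i j x = x := fun x h h' =>
      Equiv.swap_apply_of_ne_of_ne h h'
    by_cases ha : a = i
    · subst ha
      obtain ⟨hb1, hb2⟩ := h.resolve_left fun h => h.1 rfl
      rw [Equiv.swap_apply_left, hoff b hb1 hb2]
      exact (wst_conj_off two hij (Ne.symm hb1) (Ne.symm hb2) r).1
    by_cases ha' : a = j
    · subst ha'
      obtain ⟨hb1, hb2⟩ := h.resolve_left fun h => h.2 rfl
      rw [Equiv.swap_apply_right, hoff b hb1 hb2]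
      exact (wst_conj_off two hij (Ne.symm hb1) (Ne.symm hb2) r).2.2.1
    by_cases hb : b = i
    · subst hb
      rw [Equiv.swap_apply_left, hoff a ha ha']
      exact (wst_conj_off two hij (Ne.symm ha) (Ne.symm ha') r).2.1
    by_cases hb' : b = j
    · subst hb'
      rw [Equiv.swap_apply_right, hoff a ha ha']
      exact (wst_conj_off two hij (Ne.symm ha) (Ne.symm ha') r).2.2.2
    rw [hoff a ha ha', hoff b hb hb']
    have cA : Commute (xst i j (1 : R) : St n R) (xst a b r) :=
      xst_rels.comm _ _ _ _ hij hab (Ne.symm ha') (Ne.symm hb) _ _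
    have cB : Commute (xst j i (1 : R) : St n R) (xst a b r) :=
      xst_rels.comm _ _ _ _ (Ne.symm hij) hab (Ne.symm ha) (Ne.symm hb') _ _
    have cw : Commute (wst i j : St n R) (xst a b r) := (cA.mul_left cB).mul_left cA
    rw [cw.eq, mul_assoc, wst_wst two, mul_one]
  · obtain ⟨l, hl⟩ : ∃ l, l ∉ ({i, j} : Finset (Fin n)) := by
      by_contra h'
      push Not at h'
      have h2 := Finset.card_le_card (fun x (_ : x ∈ Finset.univ) => h' x)
      rw [Finset.card_univ, Fintype.card_fin] at h2
      have := Finset.card_le_two (a := i) (b := j)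
      omega
    simp only [Finset.mem_insert, Finset.mem_singleton, not_or] at hl
    have ha : a = i ∨ a = j := by tauto
    have hb : b = i ∨ b = j := by tauto
    have hal : a ≠ l := by rintro rfl; tauto
    have hbl : b ≠ l := by rintro rfl; tauto
    have e : ∀ c, c = i ∨ c = j → Equiv.swap i j c ≠ l := by
      rintro c (rfl | rfl) <;> simp [Ne.symm hl.1, Ne.symm hl.2]
    have h1 : ∀ s : R, wst i j * xst a l s * wst i j = (xst (Equiv.swap i j a) l s : St n R) := by
      intro s
      rcases ha with rfl | rfl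
      · rw [Equiv.swap_apply_left]; exact (wst_conj_off two hij (Ne.symm hl.1) (Ne.symm hl.2) s).1
      · rw [Equiv.swap_apply_right]
        exact (wst_conj_off two hij (Ne.symm hl.1) (Ne.symm hl.2) s).2.2.1
    have h2 : ∀ s : R, wst i j * xst l b s * wst i j = (xst l (Equiv.swap i j b) s : St n R) := by
      intro s
      rcases hb with rfl | rfl
      · rw [Equiv.swap_apply_left]
        exact (wst_conj_off two hij (Ne.symm hl.1) (Ne.symm hl.2) s).2.1
      · rw [Equiv.swap_apply_right]
        exact (wst_conj_off two hij (Ne.symm hl.1) (Ne.symm hl.2) s).2.2.2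
    rw [← mul_one r, ← xst_rels.mul a l b hal (Ne.symm hbl) hab r 1,
      ← xst_rels.mul (Equiv.swap i j a) l (Equiv.swap i j b) (e a ha) (Ne.symm (e b hb))
        ((Equiv.swap i j).injective.ne hab) r 1, ← h1, ← h2, commutatorElement_def,
      commutatorElement_def]
    have hsq := wst_wst (R := R) two i j
    simp only [_root_.mul_inv_rev, wst_inv two, mul_assoc]
    simp only [← mul_assoc (wst i j) (wst i j), hsq, one_mul]

end Two

end Vale.Agent.P193.K2
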