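import Vale.Agent.P193.K2.Stable

/-!
Kernel elements of the Steinberg group come from one size smaller.
-/

noncomputable section

namespace Vale.Agent.P193.K2

open Matrix Vale.Agent.P193.Steinberg

variable {R : Type*} [Ring R] {n k : ℕ}

/-- Dropping the first coordinate. -/
def lo (v : Fin (k + 1) → R) : Fin k → R := fun i => v i.succ

@[simp] theorem lo_cons (a : R) (v : Fin k → R) : lo (Fin.cons a v) = v := rfl

theorem lo_single_succ (a : Fin k) (r : R) :
    lo (Pi.single a.succ r) = (Pi.single a r : Fin k → R) := by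
  funext i
  by_cases h : i = a
  · subst h; simp [lo]
  · simp [lo, h, Fin.succ_inj]

theorem lo_single_one (r : R) :
    lo (Pi.single (1 : Fin (k + 2)) r) = (Pi.single 0 r : Fin (k + 1) → R) :=
  lo_single_succ 0 r

theorem embM_mulVec (L : Matrix (Fin k) (Fin k) R) (v : Fin (k + 1) → R) :
    embM L *ᵥ v = Fin.cons (v 0) (L *ᵥ lo v) := by
  funext i
  induction i using Fin.cases <;>
    simp [embM, mulVec, dotProduct, Fin.sum_univ_succ, lo]

theorem rowM_mulVec (b : Fin k → R) (v : Fin (k + 1) → R) :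
    rowM b *ᵥ v = Fin.cons (v 0 + b ⬝ᵥ lo v) (lo v) := by
  funext i
  induction i using Fin.cases <;>
    simp [rowM, mulVec, dotProduct, Fin.sum_univ_succ, lo, Matrix.one_apply]

theorem toG_rowv_mulVec (b : Fin k → R) (v : Fin (k + 1) → R) :
    (toG (rowv b) : Matrix (Fin (k + 1)) (Fin (k + 1)) R) *ᵥ v =
      Fin.cons (v 0 + b ⬝ᵥ lo v) (lo v) := by
  rw [toG_rowv, rowM_mulVec]

theorem toG_stab_mulVec (l : St k R) (v : Fin (k + 1) → R) :
    (toG (stab l) : Matrix (Fin (k + 1)) (Fin (k + 1)) R) *ᵥ v =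
      Fin.cons (v 0) ((toG l : Matrix (Fin k) (Fin k) R) *ᵥ lo v) := by
  rw [toG_stab]
  exact embM_mulVec _ _

/-- An elementary element with prescribed first column. -/
theorem exists_with_col (hc : Cuts R) {v : Fin k → R} (hv : Good v) (a : Fin k) (hk : 2 ≤ k) :
    ∃ l : St k R, (toG l : Matrix (Fin k) (Fin k) R) *ᵥ Pi.single a 1 = v := by
  obtain ⟨e, he, hev⟩ := reach_of_good hc hv a hk
  obtain ⟨l, hl⟩ := el_le_range (inv_mem he)
  refine ⟨l, ?_⟩
  rw [hl, ← hev, mulVec_mulVec, e.inv_mul, one_mulVec]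

/-- An element of `H` with prescribed second column. -/
theorem exists_H_col (hc : Cuts R) {v : Fin (k + 2) → R} (hv : Good (lo v)) (hk : 1 ≤ k) :
    ∃ h ∈ H R (k + 1), (toG h : Matrix (Fin (k + 2)) (Fin (k + 2)) R) *ᵥ Pi.single 1 1 = v := by
  obtain ⟨y, hy, hne⟩ := hv
  obtain ⟨l, hl⟩ := exists_with_col hc ⟨y, hy, hne⟩ 0 (by omega)
  refine ⟨rowv (fun i => v 0 * y i) * stab l, mul_mem (rowv_mem_H _) (stab_mem_H l), ?_⟩
  have e1 : lo (Pi.single (1 : Fin (k + 2)) (1 : R)) = Pi.single 0 1 := lo_single_one 1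
  rw [map_mul, Units.val_mul, ← mulVec_mulVec, toG_stab_mulVec, e1, hl, toG_rowv_mulVec]
  funext i
  induction i using Fin.cases with
  | succ i => simp [lo]
  | zero =>
    simp only [Fin.cons_zero, lo_cons]
    simp only [dotProduct] at hy
    simp only [dotProduct, mul_assoc, ← Finset.mul_sum, hy, mul_one]
    simp

section Two

variable (two : (2 : R) = 0)

include two

/-- Stabiliser elements of `H` stay in `H` after conjugation by the first permuting element. -/
theorem conj_stabiliser (hGL : ∀ g : (Matrix (Fin k) (Fin k) R)ˣ, g ∈ El R k) (hk : 1 ≤ k)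
    {g : St (k + 2) R} (hg : g ∈ H R (k + 1))
    (hfix : (toG g : Matrix (Fin (k + 2)) (Fin (k + 2)) R) *ᵥ Pi.single 1 1 = Pi.single 1 1) :
    wst 0 1 * g * wst 0 1 ∈ H R (k + 1) := by
  classical
  obtain ⟨v, l, rfl⟩ := mem_H_decomp hg
  rw [map_mul, Units.val_mul, ← mulVec_mulVec, toG_stab_mulVec, toG_rowv_mulVec] at hfix
  have e1 : lo (Pi.single (1 : Fin (k + 2)) (1 : R)) = Pi.single 0 1 := lo_single_one 1
  rw [e1, lo_cons] at hfix
  have hcol : (toG l : Matrix (Fin (k + 1)) (Fin (k + 1)) R) *ᵥ Pi.single 0 1 = Pi.single 0 1 := by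
    have h := congrArg lo hfix
    rwa [lo_cons, e1] at h
  have hv0 : v 0 = 0 := by
    have h := congrFun hfix 0
    rw [Fin.cons_zero, hcol] at h
    simpa using h
  obtain ⟨D, b, hDb⟩ := col_zero_decomp (toG l) fun i => by
    have h := congrFun hcol i
    simpa [mulVec_single] using h
  obtain ⟨D', hD'⟩ := el_le_range (hGL D)
  set c := (rowv b * stab D')⁻¹ * l
  have hc : toG c = 1 := by
    rw [map_mul, map_inv, inv_mul_eq_one]
    refine Units.ext ?_
    rw [toG_decomp, hD', hDb]
  have hl : l = rowv b * stab D' * c := (mul_inv_cancel_left _ _).symm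
  set s : St (k + 2) R := wst 0 1
  have hss : s * s = 1 := wst_wst two 0 1
  let f : St (k + 2) R →* St (k + 2) R :=
    { toFun := fun x => s * x * s
      map_one' := by rw [mul_one, hss]
      map_mul' := fun x y => by
        calc s * (x * y) * s = s * x * (s * s) * y * s := by rw [hss]; group
          _ = s * x * s * (s * y * s) := by group }
  have hgen : ∀ (i j : Fin (k + 2)) (r : R), i ≠ j → j ≠ 0 → j ≠ 1 →
      xst i j r ∈ (H R (k + 1)).comap f := by
    intro i j r hij hj0 hj1
    show s * xst i j r * s ∈ H R (k + 1)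
    rw [wst_conj two (by omega) (by simp) i j hij]
    refine xst_mem_H ((Equiv.swap 0 1).injective.ne hij) ?_ r
    rw [Equiv.swap_apply_of_ne_of_ne hj0 hj1]
    exact hj0
  show rowv v * stab l ∈ (H R (k + 1)).comap f
  rw [hl, map_mul, map_mul]
  refine mul_mem ?_ (mul_mem (mul_mem ?_ ?_) ?_)
  · refine rowv_mem fun i hi => hgen _ _ _ (Fin.succ_ne_zero i).symm (Fin.succ_ne_zero i) ?_
    rw [← Fin.succ_zero_eq_one, Ne, Fin.succ_inj]
    rintro rfl
    exact hi hv0
  · have h : (H R k) ≤ ((H R (k + 1)).comap f).comap stab := by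
      refine (Subgroup.closure_le _).2 ?_
      rintro _ ⟨i, j, r, hij, hj, rfl⟩
      show stab (xst i j r) ∈ (H R (k + 1)).comap f
      rw [stab_xst]
      refine hgen _ _ _ ((Fin.succ_injective _).ne hij) (Fin.succ_ne_zero j) ?_
      rw [← Fin.succ_zero_eq_one, Ne, Fin.succ_inj]
      exact hj
    exact h (rowv_mem_H b)
  · have h : (⊤ : Subgroup (St k R)) ≤ ((H R (k + 1)).comap f).comap (stab.comp stab) := by
      rw [← closure_xst, Subgroup.closure_le]
      rintro _ ⟨i, j, r, hij, rfl⟩
      show stab (stab (xst i j r)) ∈ (H R (k + 1)).comap f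
      rw [stab_xst, stab_xst]
      refine hgen _ _ _ ((Fin.succ_injective _).ne ((Fin.succ_injective _).ne hij))
        (Fin.succ_ne_zero _) ?_
      rw [← Fin.succ_zero_eq_one, Ne, Fin.succ_inj]
      exact Fin.succ_ne_zero j
    exact h (Subgroup.mem_top D')
  · show s * stab c * s ∈ H R (k + 1)
    rw [(stab_central hc s).symm.eq, mul_assoc, hss, mul_one]
    exact stab_mem_H c

/-- The coset attached to a column does not depend on the choice. -/
theorem coset_unique (hGL : ∀ g : (Matrix (Fin k) (Fin k) R)ˣ, g ∈ El R k) (hk : 1 ≤ k)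
    {h h' : St (k + 2) R} (hh : h ∈ H R (k + 1)) (hh' : h' ∈ H R (k + 1))
    (e : (toG h : Matrix (Fin (k + 2)) (Fin (k + 2)) R) *ᵥ Pi.single 1 1 =
      (toG h' : Matrix (Fin (k + 2)) (Fin (k + 2)) R) *ᵥ Pi.single 1 1) :
    (QuotientGroup.mk (h * wst 0 1) : St (k + 2) R ⧸ H R (k + 1)) =
      QuotientGroup.mk (h' * wst 0 1) := by
  rw [QuotientGroup.eq, _root_.mul_inv_rev, wst_inv two, mul_assoc, ← mul_assoc h⁻¹, ← mul_assoc]
  refine conj_stabiliser two hGL hk (mul_mem (inv_mem hh) hh') ?_
  rw [map_mul, Units.val_mul, ← mulVec_mulVec, ← e, mulVec_mulVec, ← Units.val_mul, ← map_mul,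
    inv_mul_cancel, map_one, Units.val_one, one_mulVec]

theorem toG_wst {i j : Fin n} (h : i ≠ j) (l : Fin n) :
    (toG (wst i j : St n R) : Matrix (Fin n) (Fin n) R) *ᵥ Pi.single l 1 =
      Pi.single (Equiv.swap i j l) 1 := by
  classical
  have ht : ∀ (a b : Fin n), a ≠ b → ∀ v : Fin n → R,
      (tu a b (1 : R) : Matrix (Fin n) (Fin n) R) *ᵥ v = Function.update v a (v a + v b) := by
    intro a b hab v
    funext x
    rw [tu_val hab, add_mulVec, one_mulVec, single_mulVec]
    by_cases hx : x = a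
    · subst hx; simp
    · simp [hx]
  simp only [wst, map_mul, toG_xst, Units.val_mul, ← mulVec_mulVec, ht i j h, ht j i h.symm]
  have h2 : (1 : R) + 1 = 0 := by rw [one_add_one_eq_two, two]
  funext x
  by_cases hli : l = i
  · subst hli
    rw [Equiv.swap_apply_left]
    by_cases hx : x = l
    · subst hx; simp [h, h.symm, h2]
    · by_cases hxj : x = j
      · subst hxj; simp [h, h.symm]
      · simp [hx, hxj]
  · by_cases hlj : l = j
    · subst hlj
      rw [Equiv.swap_apply_right]
      by_cases hx : x = i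
      · subst hx; simp [h, h.symm, h2]
      · by_cases hxj : x = l
        · subst hxj; simp [h, h.symm, h2]
        · simp [hx, hxj]
    · rw [Equiv.swap_apply_of_ne_of_ne hli hlj]
      by_cases hx : x = i
      · subst hx; simp [h, h.symm, Ne.symm hli, Ne.symm hlj]
      · by_cases hxj : x = j
        · subst hxj; simp [h, h.symm, Ne.symm hli, Ne.symm hlj]
        · simp [hx, hxj]

theorem wst_mulVec {i j : Fin n} (h : i ≠ j) (v : Fin n → R) :
    (toG (wst i j : St n R) : Matrix (Fin n) (Fin n) R) *ᵥ v = v ∘ Equiv.swap i j := by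
  classical
  funext x
  rw [mulVec, dotProduct, Finset.sum_eq_single (Equiv.swap i j x)]
  · have h1 := congrFun (toG_wst two h (Equiv.swap i j x)) x
    simp [mulVec_single] at h1
    simp [h1]
  · intro b _ hb
    have h1 := congrFun (toG_wst two h b) x
    have hne : x ≠ Equiv.swap i j b := fun e => hb (by rw [e, Equiv.swap_apply_self])
    simp [mulVec_single, Pi.single_eq_of_ne hne] at h1
    simp [h1]
  · simp

/-- The invariance of the coset under the first permuting element. -/
theorem step (hc : Cuts R) {k : ℕ} (hGL : ∀ g : (Matrix (Fin (k + 1)) (Fin (k + 1)) R)ˣ,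
      g ∈ El R (k + 1)) (hk : 1 ≤ k)
    {w : Fin (k + 3) → R} (hw : Good (lo (lo w))) {h h' : St (k + 3) R}
    (hh : h ∈ H R (k + 2)) (hh' : h' ∈ H R (k + 2))
    (eh : (toG h : Matrix (Fin (k + 3)) (Fin (k + 3)) R) *ᵥ Pi.single 1 1 = w)
    (eh' : (toG h' : Matrix (Fin (k + 3)) (Fin (k + 3)) R) *ᵥ Pi.single 1 1 =
      (toG (wst 0 1 : St (k + 3) R) : Matrix (Fin (k + 3)) (Fin (k + 3)) R) *ᵥ w) :
    (QuotientGroup.mk (h * wst 0 1) : St (k + 3) R ⧸ H R (k + 2)) =
      QuotientGroup.mk (wst 0 1 * (h' * wst 0 1)) := by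
  classical
  obtain ⟨y, hy, hne⟩ := hw
  obtain ⟨l, hl⟩ := exists_with_col hc ⟨y, hy, hne⟩ 0 (by omega)
  set s : St (k + 3) R := wst 0 1
  set t : St (k + 3) R := wst 1 2
  set v0 : Fin (k + 2) → R := Fin.cons 0 fun i => w 0 * y i
  set P := rowv v0 * stab (rowv fun i => lo w 0 * y i) * stab (stab l)
  have hP : P ∈ H R (k + 2) :=
    mul_mem (mul_mem (rowv_mem_H _) (stab_mem_H _)) (stab_mem_H _)
  have ht : t ∈ H R (k + 2) := by
    have e : t = stab (wst 0 1) := by simp [t, wst, map_mul, stab_xst]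
    rw [e]; exact stab_mem_H _
  have hPcol : (toG P : Matrix (Fin (k + 3)) (Fin (k + 3)) R) *ᵥ Pi.single 2 1 = w := by
    have e0 : (2 : Fin (k + 3)) = (1 : Fin (k + 2)).succ := Fin.succ_one_eq_two.symm
    have e2 : lo (lo (Pi.single (2 : Fin (k + 3)) (1 : R))) = Pi.single 0 1 := by
      rw [e0, lo_single_succ, lo_single_one]
    simp only [P, map_mul, Units.val_mul, ← mulVec_mulVec, toG_stab_mulVec]
    have e3 : lo (Pi.single (2 : Fin (k + 3)) (1 : R)) 0 = 0 := by
      rw [e0, lo_single_succ]; simp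
    have e4 : (Pi.single (2 : Fin (k + 3)) (1 : R) : Fin (k + 3) → R) 0 = 0 := by
      rw [e0, Pi.single_eq_of_ne (Fin.succ_ne_zero _).symm]
    rw [e2, hl, e3, e4]
    simp only [dotProduct] at hy
    have e5 : ∀ r : R, ∑ i, r * y i * lo (lo w) i = r := fun r => by
      simp only [mul_assoc]; rw [← Finset.mul_sum, hy, mul_one]
    rw [toG_rowv_mulVec]
    simp only [lo_cons, Fin.cons_zero]
    rw [toG_rowv_mulVec]
    simp only [lo_cons, Fin.cons_zero, zero_add, dotProduct]
    funext i
    induction i using Fin.cases with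
    | zero =>
      simp only [Fin.cons_zero, v0]
      rw [Fin.sum_univ_succ]
      simp only [Fin.cons_zero, Fin.cons_succ, zero_mul, zero_add]
      exact e5 (w 0)
    | succ i =>
      induction i using Fin.cases with
      | zero =>
        simp only [Fin.cons_succ, Fin.cons_zero]
        exact e5 (lo w 0)
      | succ i => simp [lo]
  have h01 : (0 : Fin (k + 3)) ≠ 1 := by simp
  have h12 : (1 : Fin (k + 3)) ≠ 2 := by
    intro e; have := congrArg Fin.val e; simp [Nat.mod_eq_of_lt] at this
  have h20 : (2 : Fin (k + 3)) ≠ 0 := by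
    intro e; have := congrArg Fin.val e; simp [Nat.mod_eq_of_lt] at this
  have h21 : (2 : Fin (k + 3)) ≠ 1 := h12.symm
  have hPt : (toG (P * t) : Matrix (Fin (k + 3)) (Fin (k + 3)) R) *ᵥ Pi.single 1 1 = w := by
    rw [map_mul, Units.val_mul, ← mulVec_mulVec, toG_wst two h12, Equiv.swap_apply_left]
    exact hPcol
  have hsP : s * P * s ∈ H R (k + 2) := by
    let f : St (k + 3) R →* St (k + 3) R :=
      { toFun := fun x => s * x * s
        map_one' := by rw [mul_one, wst_wst two]
        map_mul' := fun x y => by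
          calc s * (x * y) * s = s * x * (s * s) * y * s := by rw [wst_wst two]; group
            _ = s * x * s * (s * y * s) := by group }
    have hgen : ∀ (i j : Fin (k + 3)) (r : R), i ≠ j → j ≠ 0 → j ≠ 1 →
        xst i j r ∈ (H R (k + 2)).comap f := by
      intro i j r hij hj0 hj1
      show s * xst i j r * s ∈ H R (k + 2)
      rw [wst_conj two (by omega) h01 i j hij]
      refine xst_mem_H ((Equiv.swap 0 1).injective.ne hij) ?_ r
      rw [Equiv.swap_apply_of_ne_of_ne hj0 hj1]
      exact hj0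
    show P ∈ (H R (k + 2)).comap f
    refine mul_mem (mul_mem ?_ ?_) ?_
    · refine rowv_mem fun i hi => hgen _ _ _ (Fin.succ_ne_zero i).symm (Fin.succ_ne_zero i) ?_
      rw [← Fin.succ_zero_eq_one, Ne, Fin.succ_inj]
      rintro rfl
      exact hi (by simp [v0])
    · have h : (H R (k + 1)) ≤ ((H R (k + 2)).comap f).comap stab := by
        refine (Subgroup.closure_le _).2 ?_
        rintro _ ⟨i, j, r, hij, hj, rfl⟩
        show stab (xst i j r) ∈ (H R (k + 2)).comap f
        rw [stab_xst]
        refine hgen _ _ _ ((Fin.succ_injective _).ne hij) (Fin.succ_ne_zero j) ?_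
        rw [← Fin.succ_zero_eq_one, Ne, Fin.succ_inj]
        exact hj
      exact h (rowv_mem_H _)
    · have h : (⊤ : Subgroup (St (k + 1) R)) ≤
          ((H R (k + 2)).comap f).comap (stab.comp stab) := by
        rw [← closure_xst, Subgroup.closure_le]
        rintro _ ⟨i, j, r, hij, rfl⟩
        show stab (stab (xst i j r)) ∈ (H R (k + 2)).comap f
        rw [stab_xst, stab_xst]
        refine hgen _ _ _ ((Fin.succ_injective _).ne ((Fin.succ_injective _).ne hij))
          (Fin.succ_ne_zero _) ?_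
        rw [← Fin.succ_zero_eq_one, Ne, Fin.succ_inj]
        exact Fin.succ_ne_zero j
      exact h (Subgroup.mem_top l)
  have hsPt : (toG (s * P * s * t) : Matrix (Fin (k + 3)) (Fin (k + 3)) R) *ᵥ Pi.single 1 1 =
      (toG s : Matrix (Fin (k + 3)) (Fin (k + 3)) R) *ᵥ w := by
    rw [map_mul, Units.val_mul, ← mulVec_mulVec, toG_wst two h12, Equiv.swap_apply_left, map_mul,
      Units.val_mul, ← mulVec_mulVec, toG_wst two h01, Equiv.swap_apply_of_ne_of_ne h20 h21,
      map_mul, Units.val_mul, ← mulVec_mulVec, hPcol]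
  have hbraid : s * t * s = t * s * t := by
    have hst : ∀ (a b : Fin (k + 3)), a ≠ b → ∀ (i j : Fin (k + 3)), i ≠ j →
        wst a b * wst i j * wst a b =
          (wst (Equiv.swap a b i) (Equiv.swap a b j) : St (k + 3) R) := by
      intro a b hab i j hij
      have hsq := wst_wst (R := R) two a b
      have h1 := wst_conj two (R := R) (by omega) hab i j hij 1
      have h2 := wst_conj two (R := R) (by omega) hab j i hij.symm 1
      have key : ∀ g x y : St (k + 3) R, g * g = 1 →
          g * (x * y * x) * g = (g * x * g) * (g * y * g) * (g * x * g) := by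
        intro g x y hg
        calc g * (x * y * x) * g = g * x * (1 * y * 1) * x * g := by group
          _ = g * x * ((g * g) * y * (g * g)) * x * g := by rw [hg]
          _ = _ := by simp only [mul_assoc]
      conv_lhs => arg 1; arg 2; rw [wst]
      rw [key _ _ _ hsq, h1, h2]
      rfl
    rw [hst 0 1 h01 1 2 h12, hst 1 2 h12 0 1 h01, Equiv.swap_apply_right,
      Equiv.swap_apply_of_ne_of_ne h20 h21, Equiv.swap_apply_left,
      Equiv.swap_apply_of_ne_of_ne (Ne.symm (Ne.symm h01)) (Ne.symm h20)]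
  rw [coset_unique two hGL (by omega) hh (mul_mem hP ht) (eh.trans hPt.symm)]
  have hE := coset_unique two hGL (by omega) hh' (mul_mem hsP ht) (eh'.trans hsPt.symm)
  have hm : ∀ {a b : St (k + 3) R}, (QuotientGroup.mk a : St (k + 3) R ⧸ H R (k + 2)) =
      QuotientGroup.mk b → (QuotientGroup.mk (s * a) : St (k + 3) R ⧸ H R (k + 2)) =
      QuotientGroup.mk (s * b) := fun h => by
    rw [QuotientGroup.eq] at h ⊢
    convert h using 1
    group
  rw [hm hE, QuotientGroup.eq]
  have hss : s * s = 1 := wst_wst two 0 1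
  have hti : t⁻¹ = t := wst_inv two 1 2
  have hsi : s⁻¹ = s := wst_inv two 0 1
  convert ht using 1
  calc (P * t * s)⁻¹ * (s * (s * P * s * t * s)) = s * t * P⁻¹ * ((s * s) * P * s * t * s) := by
        simp only [_root_.mul_inv_rev, hti, hsi, mul_assoc]
    _ = s * t * s * t * s := by rw [hss]; group
    _ = t * s * t * t * s := by rw [hbraid]
    _ = t * (s * (t * t) * s) := by group
    _ = t := by rw [wst_wst two, mul_one, hss, mul_one]

end Two

end Vale.Agent.P193.K2
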