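import Vale.Agent.P193.K2.Step3

/-!
Surjective stability of the kernels of the maps from Steinberg groups.
-/

noncomputable section

namespace Vale.Agent.P193.K2

open Matrix Vale.Agent.P193.Steinberg
open scoped Classical

variable {R : Type*} [Ring R] {k : ℕ}

/-- The column transported back by an element. -/
def back (f : St (k + 3) R) (u : Fin (k + 3) → R) : Fin (k + 3) → R :=
  (↑(toG f)⁻¹ : Matrix (Fin (k + 3)) (Fin (k + 3)) R) *ᵥ u

theorem back_one (u : Fin (k + 3) → R) : back (1 : St (k + 3) R) u = u := by simp [back]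

theorem back_mul (f g : St (k + 3) R) (u : Fin (k + 3) → R) :
    back (f * g) u = back g (back f u) := by
  simp [back, mulVec_mulVec]

theorem toG_back (f : St (k + 3) R) (u : Fin (k + 3) → R) :
    (toG f : Matrix (Fin (k + 3)) (Fin (k + 3)) R) *ᵥ back f u = u := by
  simp [back, mulVec_mulVec]

theorem good_of_good_lo {m : ℕ} [Nontrivial R] {v : Fin (m + 1) → R} (h : Good (lo v)) : Good v := by
  obtain ⟨y, hy, hne⟩ := h
  refine ⟨Fin.cons 0 y, ?_, fun e => ?_⟩
  · simpa [dotProduct, Fin.sum_univ_succ, lo] using hy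
  · have h0 := congrFun (congrFun e 0) 0
    simp [vecMulVec_apply] at h0

section Two

variable (two : (2 : R) = 0) [Nontrivial R] (hc : Cuts R)
  (hGL : ∀ g : (Matrix (Fin (k + 1)) (Fin (k + 1)) R)ˣ, g ∈ El R (k + 1)) (hk : 1 ≤ k)

include two hc hGL hk

/-- The statement of invariance along an element. -/
def Inv' (g : St (k + 3) R) : Prop :=
  ∃ F : Finset (St (k + 3) R), ∀ u : Fin (k + 3) → R, (∀ f ∈ F, Good (lo (lo (back f u)))) →
    ∀ h ∈ H R (k + 2), ∀ h' ∈ H R (k + 2),
      (toG h : Matrix (Fin (k + 3)) (Fin (k + 3)) R) *ᵥ Pi.single 1 1 = u →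
      (toG h' : Matrix (Fin (k + 3)) (Fin (k + 3)) R) *ᵥ Pi.single 1 1 = back g u →
      (QuotientGroup.mk (h * wst 0 1) : St (k + 3) R ⧸ H R (k + 2)) =
        QuotientGroup.mk (g * (h' * wst 0 1))

omit two hc hGL hk [Nontrivial R] in
theorem mk_smul {g a b : St (k + 3) R}
    (h : (QuotientGroup.mk a : St (k + 3) R ⧸ H R (k + 2)) = QuotientGroup.mk b) :
    (QuotientGroup.mk (g * a) : St (k + 3) R ⧸ H R (k + 2)) = QuotientGroup.mk (g * b) := by
  rw [QuotientGroup.eq] at h ⊢
  convert h using 1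
  group

omit hc [Nontrivial R] in
theorem inv'_mem {g : St (k + 3) R} (hg : g ∈ H R (k + 2)) : Inv' g := by
  refine ⟨∅, fun u _ h hh h' hh' e e' => ?_⟩
  rw [← mul_assoc]
  refine coset_unique two hGL (by omega) hh (mul_mem hg hh') ?_
  rw [e, map_mul, Units.val_mul, ← mulVec_mulVec, e', toG_back]

omit [Nontrivial R] in
theorem inv'_wst : Inv' (R := R) (k := k) (wst 0 1) := by
  refine ⟨{1}, fun u hF h hh h' hh' e e' => ?_⟩
  have hu := hF 1 (Finset.mem_singleton_self _)
  rw [back_one] at hu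
  refine step two hc hGL hk hu hh hh' e ?_
  rw [e', back]
  congr 2
  rw [← map_inv, wst_inv two]

theorem inv'_mul {g g' : St (k + 3) R} (h1 : Inv' g) (h2 : Inv' g') : Inv' (g * g') := by
  obtain ⟨F1, hF1⟩ := h1
  obtain ⟨F2, hF2⟩ := h2
  refine ⟨F1 ∪ F2.image (fun f => g * f) ∪ {g}, fun u hF h hh h' hh' e e' => ?_⟩
  have hg := hF g (Finset.mem_union_right _ (Finset.mem_singleton_self g))
  obtain ⟨m, hm, hme⟩ := exists_H_col hc (k := k + 1) (good_of_good_lo hg) (by omega)
  rw [hF1 u (fun f hf => hF f (Finset.mem_union_left _ (Finset.mem_union_left _ hf))) h hh m hm e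
    hme, mul_assoc g g']
  refine mk_smul (hF2 (back g u) (fun f hf => ?_) m hm h' hh' hme (by rw [e', back_mul]))
  rw [← back_mul]
  exact hF _ (Finset.mem_union_left _ (Finset.mem_union_right _ (Finset.mem_image_of_mem _ hf)))

omit two hc hGL hk [Nontrivial R] in
theorem inv'_inv {g : St (k + 3) R} (h1 : Inv' g) : Inv' g⁻¹ := by
  obtain ⟨F, hF⟩ := h1
  refine ⟨F.image (fun f => g⁻¹ * f), fun u hu h hh h' hh' e e' => ?_⟩
  have key := hF (back g⁻¹ u) (fun f hf => ?_) h' hh' h hh e' ?_
  · have h3 := mk_smul (g := g⁻¹) key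
    rw [inv_mul_cancel_left] at h3
    exact h3.symm
  · rw [← back_mul]
    exact hu _ (Finset.mem_image_of_mem _ hf)
  · rw [e, ← back_mul, inv_mul_cancel, back_one]

omit hc hGL hk [Nontrivial R] in
theorem closure_H_wst :
    Subgroup.closure ((H R (k + 2) : Set (St (k + 3) R)) ∪ {wst 0 1}) = ⊤ := by
  rw [← top_le_iff, ← closure_xst, Subgroup.closure_le]
  rintro _ ⟨i, j, r, hij, rfl⟩
  set N := Subgroup.closure ((H R (k + 2) : Set (St (k + 3) R)) ∪ {wst 0 1})
  by_cases hj : j = 0
  swap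
  · exact Subgroup.subset_closure (Or.inl (xst_mem_H hij hj r))
  subst hj
  have hs : (wst 0 1 : St (k + 3) R) ∈ N := Subgroup.subset_closure (Or.inr rfl)
  have h01 : (0 : Fin (k + 3)) ≠ 1 := by simp
  have h := wst_conj two (R := R) (by omega) h01 (Equiv.swap 0 1 i) 1
    (fun e => hij (by
      have := congrArg (Equiv.swap (0 : Fin (k + 3)) 1) e
      rwa [Equiv.swap_apply_self, Equiv.swap_apply_right] at this)) r
  rw [Equiv.swap_apply_self, Equiv.swap_apply_right] at h
  rw [SetLike.mem_coe, ← h]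
  refine mul_mem (mul_mem hs (Subgroup.subset_closure (Or.inl (xst_mem_H ?_ (Ne.symm h01) r)))) hs
  intro e
  have := congrArg (Equiv.swap (0 : Fin (k + 3)) 1) e
  rw [Equiv.swap_apply_self, Equiv.swap_apply_right] at this
  exact hij this

theorem inv'_all (g : St (k + 3) R) : Inv' g := by
  have hg : g ∈ Subgroup.closure ((H R (k + 2) : Set (St (k + 3) R)) ∪ {wst 0 1}) := by
    rw [closure_H_wst two]; trivial
  induction hg using Subgroup.closure_induction with
  | mem x hx =>
    rcases hx with hx | hx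
    · exact inv'_mem two hGL hk hx
    · rw [Set.mem_singleton_iff.1 hx]; exact inv'_wst two hc hGL hk
  | one => exact inv'_mem two hGL hk (one_mem _)
  | mul x y _ _ hx hy => exact inv'_mul two hc hGL hk hx hy
  | inv x _ hx => exact inv'_inv hx

omit two hc hGL hk in
/-- A column good for finitely many elements at once. -/
theorem exists_generic (hu : UCuts R) (S : Split R) (F : Finset (St (k + 3) R)) :
    ∃ u : Fin (k + 3) → R, ∀ f ∈ F, Good (lo (lo (back f u))) := by
  obtain ⟨φ, φ', h1, h2⟩ := exists_col S (k + 2)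
  obtain ⟨ψ, ψ', g1, g2⟩ := exists_col S k
  let a : St (k + 3) R → R := fun f => ψ' ⬝ᵥ lo (lo (back f φ))
  have ha : ∀ f, a f ≠ 0 := by
    intro f hf
    have hv : lo (lo (back f φ)) = 0 := by
      have h : (vecMulVec ψ ψ') *ᵥ lo (lo (back f φ)) = 0 := by
        funext i
        simp only [mulVec, dotProduct, vecMulVec_apply, mul_assoc, ← Finset.mul_sum]
        simp only [a, dotProduct] at hf
        rw [hf, mul_zero]
        rfl
      rwa [g2, one_mulVec] at h
    set M : Matrix (Fin (k + 3)) (Fin (k + 3)) R := ↑(toG f)⁻¹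
    set i2 : Fin (k + 3) := (0 : Fin (k + 1)).succ.succ
    have hrow : ∀ j, M i2 j = 0 := by
      intro j
      have e : M i2 j = (M * vecMulVec φ φ') i2 j := by rw [h2, mul_one]
      rw [e, mul_apply]
      simp only [vecMulVec_apply, ← mul_assoc, ← Finset.sum_mul]
      have h3 := congrFun hv 0
      simp only [lo, back, mulVec, dotProduct, Pi.zero_apply] at h3
      rw [h3, zero_mul]
    have h4 := congrFun (congrFun (toG f).inv_mul i2) i2
    rw [mul_apply, Finset.sum_eq_zero fun j _ => by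
      show M i2 j * _ = 0
      rw [hrow, zero_mul], one_apply_eq] at h4
    exact zero_ne_one h4
  obtain ⟨x, hx⟩ := hu (F.image a) (by simpa using fun f _ => ha f)
  refine ⟨fun i => φ i * (x * S.s0), fun f hf => ?_⟩
  obtain ⟨y, hy⟩ := hx (a f) (Finset.mem_image_of_mem a hf)
  have hv : lo (lo (back f fun i => φ i * (x * S.s0))) =
      fun i => lo (lo (back f φ)) i * x * S.s0 := by
    funext i
    simp only [lo, back, mulVec, dotProduct, Finset.sum_mul, mul_assoc]
  refine ⟨fun l => S.t0 * (y * ψ' l), ?_, fun e => ?_⟩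
  · rw [hv]
    simp only [a, dotProduct] at hy
    simp only [dotProduct]
    calc ∑ l, S.t0 * (y * ψ' l) * (lo (lo (back f φ)) l * x * S.s0)
        = S.t0 * (y * (∑ l, ψ' l * lo (lo (back f φ)) l) * x) * S.s0 := by
          simp only [Finset.mul_sum, Finset.sum_mul, mul_assoc]
      _ = 1 := by rw [hy, mul_one, S.t0s0]
  · rw [hv] at e
    set v := lo (lo (back f φ))
    have e1 : ∀ i j, v i * x * S.s0 * (S.t0 * (y * ψ' j)) =
        (1 : Matrix (Fin (k + 1)) (Fin (k + 1)) R) i j := fun i j => by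
      rw [← e, vecMulVec_apply]
    have e3 : ∀ j, S.s0 * (S.t0 * (y * ψ' j)) = y * ψ' j := by
      intro j
      have h5 : ∑ i, y * ψ' i * (v i * x * S.s0 * (S.t0 * (y * ψ' j))) = y * ψ' j := by
        simp only [e1, one_apply, mul_ite, mul_one, mul_zero, Finset.sum_ite_eq', Finset.mem_univ,
          if_true]
      simp only [a, dotProduct] at hy
      conv_rhs => rw [← h5]
      rw [show ∑ i, y * ψ' i * (v i * x * S.s0 * (S.t0 * (y * ψ' j))) =
          (y * (∑ i, ψ' i * v i) * x) * (S.s0 * (S.t0 * (y * ψ' j))) by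
        simp only [Finset.mul_sum, Finset.sum_mul, mul_assoc]]
      rw [hy, one_mul]
    have e4 : S.s0 * S.t0 = 1 := by
      simp only [a, dotProduct] at hy
      calc S.s0 * S.t0 = S.s0 * S.t0 * (y * (∑ j, ψ' j * v j) * x) := by rw [hy, mul_one]
        _ = (∑ j, S.s0 * (S.t0 * (y * ψ' j)) * v j) * x := by
          simp only [Finset.mul_sum, Finset.sum_mul, mul_assoc]
        _ = (∑ j, y * ψ' j * v j) * x := by simp only [e3]
        _ = 1 := by rw [← hy]; simp only [v, Finset.mul_sum, mul_assoc]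
    have : S.t1 = 0 := by
      calc S.t1 = S.t1 * (S.s0 * S.t0) := by rw [e4, mul_one]
        _ = 0 := by rw [← mul_assoc, S.t1s0, zero_mul]
    exact one_ne_zero (α := R) (by rw [← S.t1s1, this, zero_mul])

theorem ker_le_stab (hu : UCuts R) (S : Split R) {c : St (k + 3) R} (hcker : toG c = 1) :
    ∃ c' : St (k + 2) R, toG c' = 1 ∧ c = stab c' := by
  obtain ⟨F, hF⟩ := inv'_all two hc hGL hk c
  obtain ⟨u, hu'⟩ := exists_generic hu S (insert 1 F)
  have h1 := hu' 1 (Finset.mem_insert_self _ _)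
  rw [back_one] at h1
  obtain ⟨h, hh, he⟩ := exists_H_col hc (k := k + 1) (good_of_good_lo h1) (by omega)
  have hb : back c u = u := by simp [back, hcker]
  have key := hF u (fun f hf => hu' f (Finset.mem_insert_of_mem hf)) h hh h hh he (by rw [hb, he])
  rw [QuotientGroup.eq] at key
  set g := h * wst 0 1
  obtain ⟨c', hc', he'⟩ := H_inter_ker key (by
    rw [map_mul, map_mul, map_inv, hcker, one_mul, inv_mul_cancel])
  refine ⟨c', hc', ?_⟩
  calc c = g * (g⁻¹ * (c * g)) * g⁻¹ := by group
    _ = stab c' := by rw [he', (stab_central hc' g).symm.eq]; group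

end Two

end Vale.Agent.P193.K2
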